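import Vale.Agent.P092.H616.CE
import Vale.Agent.P092.CL.Quad
import Vale.Agent.P092.CL.Flip

/-!
P092, TRACK H (helper616): one leg in the letters of `CL/Defs`, Witt index `2`: [0] from a
realisation of points and lines by hermitian projections and the incidence relations `Cx.Rel`;
the joints with one more property `Rl` (a Lemma O) of the letters of points.
-/

set_option linter.all false

open scoped InnerProductSpace ENNReal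
open Filter Topology ContinuousLinearMap MeasureTheory TopologicalSpace

namespace Vale.Agent.P092.H616.HA

open Vale.Agent.P092.RC (Cm TRN Moore Tw cj cj_ap)
open Vale.Agent.P092.H828.P (UL Loc Loc0 Dis)
open Vale.Agent.P092.H232 (Nin)
open Vale.Agent.P092.H616.Syn (bdd_of_UL)
open Vale.Agent.P092.H631.P0 (ul_of_sp i1_symm exists_hom)
open Vale.Agent.P092.CL
open Vale.Agent.P092.SP (GQ gq_com pl_flip)

variable {S P M V₁ V₂ : Type} [Group S] [MeasurableSpace V₁] [MeasurableSpace V₂]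
  [TopologicalSpace S] [MulAction S P] [TopologicalSpace P] [CompactSpace P]
  [ContinuousConstSMul S P] [MulAction S M] [TopologicalSpace M] [CompactSpace M]
  [ContinuousConstSMul S M] [NormedAddCommGroup V₁] [NormedAddCommGroup V₂]

section leg

variable {E Γ K : Type} [Group E] [TopologicalSpace E] [Group Γ] [NormedAddCommGroup K]
  [InnerProductSpace ℂ K] [CompleteSpace K]
  {L : Lt S P M V₁ V₂} {𝒰 : Ultrafilter ℕ} {ι : S →* E}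
  {π : E →* (K →L[ℂ] K)} {lam : Γ →* (K →L[ℂ] K)} {W : Set (K →L[ℂ] K)} {Ω : K}
  {m : Set Γ → (K →L[ℂ] K)} {q : Γ → S}

/-- the locality inputs give [0] -/
theorem legC_of_loc {Y₁ Y₂ : Type} [TopologicalSpace Y₁] [CompactSpace Y₁] [T2Space Y₁]
    [MulAction S Y₁] [ContinuousConstSMul S Y₁] [TopologicalSpace Y₂] [CompactSpace Y₂]
    [T2Space Y₂] [MulAction S Y₂] [ContinuousConstSMul S Y₂]
    {NA₁ : ℝ → ℝ → Set Y₁ → Set Γ} {NA₂ : ℝ → ℝ → Set Y₂ → Set Γ} {IT : Y₁ → Y₂ → Prop}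
    {U : P → (C(Y₁, ℂ) →ₗ[ℂ] (K →L[ℂ] K))} {V : M → (C(Y₂, ℂ) →ₗ[ℂ] (K →L[ℂ] K))}
    (two : ∀ c, ∃ l l', L.In c l ∧ L.In c l' ∧ l ≠ l')
    (two' : ∀ l, ∃ c c', L.In c l ∧ L.In c' l ∧ c ≠ c') (hb : PB L 𝒰 ι π lam W Ω m q)
    (he : UFam 𝒰 L.b1 L.p0 ι π lam W m q NA₁ U 1) (hf : UFam 𝒰 L.b2 L.m0 ι π lam W m q NA₂ V 1)
    (i1 : ∀ c l, L.In c l → ∀ f g, Nin IT f g → U c f * V l g = 0)
    (locE : ∀ c l l', L.In c l → L.In c l' → Loc (U c) (U c) (V l) (V l'))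
    (locF : ∀ c c' l, L.In c l → L.In c' l → Loc (V l) (V l) (U c) (U c'))
    (loc0 : ∀ c l, L.In c l → Dis (U c) (U c) → Loc0 (U c) (U c) (V l)) :
    ∃ Ec F, LegC IT L 𝒰 ι π lam W Ω m q NA₁ NA₂ Ec F ∧ (∀ c f, Ec c f = U c f) ∧
      ∀ l g, F l g = V l g := by
  have dE : ∀ c, Dis (U c) (U c) := by
    intro c
    obtain ⟨l, l', hl, hl', hne⟩ := two c
    exact H828.P.dis_of_loc (ul_of_sp (he.ul c)) one_ne_zero (ul_of_sp (hf.ul l)).star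
      (ul_of_sp (hf.ul l')).star (locE c l l' hl hl') (locE c l l' hl hl')
      (hf.agr one_ne_zero l l' hne)
  have dF : ∀ l, Dis (V l) (V l) := by
    intro l
    obtain ⟨c, c', hc, hc', hne⟩ := two' l
    exact H828.P.dis_of_loc (ul_of_sp (hf.ul l)) one_ne_zero (ul_of_sp (he.ul c)).star
      (ul_of_sp (he.ul c')).star (locF c c' l hc hc') (locF c c' l hc hc')
      (he.agr one_ne_zero c c' hne)
  choose Ec hEc using fun c => exists_hom (he.ul c) (dE c)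
  choose F hF using fun l => exists_hom (hf.ul l) (dF l)
  refine ⟨Ec, F, ⟨hb, he.hfam one_ne_zero hEc, hf.hfam one_ne_zero hF, ?_⟩, hEc, hF⟩
  intro c l hcl
  refine ⟨fun f g => ?_, fun f g hn => ?_⟩
  · have h := (ul_of_sp (he.ul c)).comm_of_local one_ne_zero (V l g)
      (fun f f' hd => loc0 c l hcl (dE c) f f' hd g) f
    change Ec c f * F l g = F l g * Ec c f
    rw [hEc, hF]
    exact h.symm
  · rw [hEc, hF]
    exact i1 c l hcl f g hn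

variable {n : ℕ} {X : C(P, Matrix (Fin n) (Fin n) ℂ)} {Q : C(M, Matrix (Fin n) (Fin n) ℂ)}
  [T2Space P] [T2Space M]
  {U11 : P → (C(P, ℂ) →ₗ[ℂ] (K →L[ℂ] K))} {p11 : ℝ}
  {U12 : P → (C(M, ℂ) →ₗ[ℂ] (K →L[ℂ] K))} {p12 : ℝ}
  {U21 : M → (C(P, ℂ) →ₗ[ℂ] (K →L[ℂ] K))} {p21 : ℝ}
  {U22 : M → (C(M, ℂ) →ₗ[ℂ] (K →L[ℂ] K))} {p22 : ℝ}

/-- **[0], straight types**, from a realisation by hermitian projections and the relations. -/
theorem straight_cx (hG : Cx.Geo X Q) (two : ∀ c, ∃ l l', L.In c l ∧ L.In c l' ∧ l ≠ l')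
    (two' : ∀ l, ∃ c c', L.In c l ∧ L.In c' l ∧ c ≠ c')
    (h : LegP L 𝒰 ι π lam W Ω m q U11 p11 U12 p12 U21 p21 U22 p22)
    (h1 : p11 = 1) (h2 : p22 = 1) (hR : ∀ c l, L.In c l → Cx.Rel X Q (U11 c) (U22 l)) :
    ∃ Ec F, LegS L 𝒰 ι π lam W Ω m q Ec F ∧ (∀ c f, Ec c f = U11 c f) ∧
      ∀ l g, F l g = U22 l g := by
  subst h1; subst h2
  have b1 : ∀ c, Syn.Bdd (U11 c) := fun c => bdd_of_UL (ul_of_sp (h.u11.ul c))
  have b2 : ∀ l, Syn.Bdd (U22 l) := fun l => bdd_of_UL (ul_of_sp (h.u22.ul l))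
  have o1 : ∀ c c', U11 c 1 = U11 c' 1 := fun c c' =>
    (ul_of_sp (h.u11.ul c)).one.trans (ul_of_sp (h.u11.ul c')).one.symm
  have o2 : ∀ l l', U22 l 1 = U22 l' 1 := fun l l' =>
    (ul_of_sp (h.u22.ul l)).one.trans (ul_of_sp (h.u22.ul l')).one.symm
  refine legC_of_loc two two' h.base h.u11 h.u22 h.i11 ?_ ?_ ?_
  · intro c l l' hl hl'
    exact Cx.loc hG (b1 c) (b1 c) (b2 l) (b2 l') (hR c l hl) (hR c l' hl') (hR c l hl)
      (hR c l' hl') (o2 l l')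
  · intro c c' l hc hc'
    exact Cx.locD hG (b2 l) (b2 l) (b1 c) (b1 c') (hR c l hc) (hR c' l hc') (hR c l hc)
      (hR c' l hc') (o1 c c')
  · intro c l hcl hd
    exact Cx.loc0 hG (b1 c) (b1 c) (b2 l) (hR c l hcl) (hR c l hcl) hd
      (ul_of_sp (h.u22.ul l)).one

/-- **[0], flipped types**, from a realisation by hermitian projections and the relations. -/
theorem flipped_cx (hG : Cx.Geo X Q) (two : ∀ c, ∃ l l', L.In c l ∧ L.In c l' ∧ l ≠ l')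
    (two' : ∀ l, ∃ c c', L.In c l ∧ L.In c' l ∧ c ≠ c')
    (h : LegP L 𝒰 ι π lam W Ω m q U11 p11 U12 p12 U21 p21 U22 p22)
    (h1 : p12 = 1) (h2 : p21 = 1) (hR : ∀ c l, L.In c l → Cx.Rel X Q (U21 l) (U12 c)) :
    ∃ Ec F, LegF L 𝒰 ι π lam W Ω m q Ec F ∧ (∀ c f, Ec c f = U12 c f) ∧
      ∀ l g, F l g = U21 l g := by
  subst h1; subst h2
  have b1 : ∀ c, Syn.Bdd (U12 c) := fun c => bdd_of_UL (ul_of_sp (h.u12.ul c))
  have b2 : ∀ l, Syn.Bdd (U21 l) := fun l => bdd_of_UL (ul_of_sp (h.u21.ul l))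
  have o1 : ∀ c c', U12 c 1 = U12 c' 1 := fun c c' =>
    (ul_of_sp (h.u12.ul c)).one.trans (ul_of_sp (h.u12.ul c')).one.symm
  have o2 : ∀ l l', U21 l 1 = U21 l' 1 := fun l l' =>
    (ul_of_sp (h.u21.ul l)).one.trans (ul_of_sp (h.u21.ul l')).one.symm
  refine legC_of_loc (IT := flip L.In) two two' h.base h.u12 h.u21 ?_ ?_ ?_ ?_
  · intro c l hcl g f hn
    exact i1_symm (ul_of_sp (h.u21.ul l)) (ul_of_sp (h.u12.ul c)) (h.i12 c l hcl) f g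
      (fun x hx z hz => hn z hz x hx)
  · intro c l l' hl hl'
    exact Cx.locD hG (b1 c) (b1 c) (b2 l) (b2 l') (hR c l hl) (hR c l' hl') (hR c l hl)
      (hR c l' hl') (o2 l l')
  · intro c c' l hc hc'
    exact Cx.loc hG (b2 l) (b2 l) (b1 c) (b1 c') (hR c l hc) (hR c' l hc') (hR c l hc)
      (hR c' l hc') (o1 c c')
  · intro c l hcl hd
    exact Cx.loc0D hG (b1 c) (b1 c) (b2 l) (hR c l hcl) (hR c l hcl) hd
      (ul_of_sp (h.u21.ul l)).one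

end leg

/-! ### The joints with one more property of the letters of points -/

section stmts

/-- the data of one leg; the letters of points have the property `Rl` -/
def HasLegR (Rl : ∀ {K : Type} [NormedAddCommGroup K] [InnerProductSpace ℂ K],
      (C(P, ℂ) →ₗ[ℂ] (K →L[ℂ] K)) → Prop) (L : Lt S P M V₁ V₂)
    {E Γ K : Type} [Group E] [TopologicalSpace E] [Group Γ] [NormedAddCommGroup K]
    [InnerProductSpace ℂ K] [CompleteSpace K] (𝒰 : Ultrafilter ℕ) (ι : S →* E)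
    (π : E →* (K →L[ℂ] K)) (lam : Γ →* (K →L[ℂ] K)) (W : Set (K →L[ℂ] K)) (Ω : K)
    (m : Set Γ → (K →L[ℂ] K)) (q : Γ → S) : Prop :=
  ∃ (U11 : P → (C(P, ℂ) →ₗ[ℂ] (K →L[ℂ] K))) (p11 : ℝ)
    (U12 : P → (C(M, ℂ) →ₗ[ℂ] (K →L[ℂ] K))) (p12 : ℝ)
    (U21 : M → (C(P, ℂ) →ₗ[ℂ] (K →L[ℂ] K))) (p21 : ℝ)
    (U22 : M → (C(M, ℂ) →ₗ[ℂ] (K →L[ℂ] K))) (p22 : ℝ),
    LegP L 𝒰 ι π lam W Ω m q U11 p11 U12 p12 U21 p21 U22 p22 ∧
      (∀ c, Rl (U11 c)) ∧ ∀ l, Rl (U21 l)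

/-- the relations of a pair of letters of mass one: point letter `E`, line letter `F` -/
def RelR (Rl : ∀ {K : Type} [NormedAddCommGroup K] [InnerProductSpace ℂ K],
      (C(P, ℂ) →ₗ[ℂ] (K →L[ℂ] K)) → Prop) (L : Lt S P M V₁ V₂) {n : ℕ}
    (X : C(P, Matrix (Fin n) (Fin n) ℂ)) (Q : C(M, Matrix (Fin n) (Fin n) ℂ)) : Prop :=
  ∀ {K : Type} [NormedAddCommGroup K] [InnerProductSpace ℂ K] [CompleteSpace K]
    (E : C(P, ℂ) →ₗ[ℂ] (K →L[ℂ] K)) (F : C(M, ℂ) →ₗ[ℂ] (K →L[ℂ] K)),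
    UL E 1 → UL F 1 → (∀ f g, Nin L.In f g → E f * F g = 0) → Rl E → Cx.Rel X Q E F

/-- **[CL-1]** from one leg to a straight leg in which everything commutes -/
def OneStmtR (Rl : ∀ {K : Type} [NormedAddCommGroup K] [InnerProductSpace ℂ K],
      (C(P, ℂ) →ₗ[ℂ] (K →L[ℂ] K)) → Prop) (L : Lt S P M V₁ V₂) : Prop :=
  ∀ {E Γ K : Type} [Group E] [TopologicalSpace E] [Group Γ] [NormedAddCommGroup K]
    [InnerProductSpace ℂ K] [CompleteSpace K] (𝒰 : Ultrafilter ℕ) (ι : S →* E)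
    (π : E →* (K →L[ℂ] K)) (lam : Γ →* (K →L[ℂ] K)) (W : Set (K →L[ℂ] K)) (Ω : K)
    (m : Set Γ → (K →L[ℂ] K)) (q : Γ → S), HasLegR Rl L 𝒰 ι π lam W Ω m q →
    ∃ (Ec : P → (C(P, ℂ) →⋆ₐ[ℂ] (K →L[ℂ] K))) (F : M → (C(M, ℂ) →⋆ₐ[ℂ] (K →L[ℂ] K))),
      LegComm L 𝒰 ι π lam W Ω m q Ec F

/-- **[CL-SYN]** the middle letter is free -/
def SynStmt (L : Lt S P M V₁ V₂) : Prop :=
  ∀ {K : Type} [NormedAddCommGroup K] [InnerProductSpace ℂ K] [CompleteSpace K]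
    (b : C(P, ℂ) →⋆ₐ[ℂ] (K →L[ℂ] K)) (l : C(M, ℂ) →⋆ₐ[ℂ] (K →L[ℂ] K)),
    H796.PL L.In b l → H677.Syn b l ∧ H677.Syn l b

/-- transportable along unitaries -/
def TwR (Rl : ∀ {K : Type} [NormedAddCommGroup K] [InnerProductSpace ℂ K],
      (C(P, ℂ) →ₗ[ℂ] (K →L[ℂ] K)) → Prop) : Prop :=
  ∀ {K K' : Type} [NormedAddCommGroup K] [InnerProductSpace ℂ K] [CompleteSpace K]
    [NormedAddCommGroup K'] [InnerProductSpace ℂ K'] [CompleteSpace K'] (u : K ≃ₗᵢ[ℂ] K')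
    (U : C(P, ℂ) →ₗ[ℂ] (K →L[ℂ] K)), Rl U → Rl (H53.TwX.cjU u U)

end stmts

section main

variable {L : Lt S P M V₁ V₂} {n : ℕ} {X : C(P, Matrix (Fin n) (Fin n) ℂ)}
  {Q : C(M, Matrix (Fin n) (Fin n) ℂ)} [T2Space P] [T2Space M]
  {Rl : ∀ {K : Type} [NormedAddCommGroup K] [InnerProductSpace ℂ K],
      (C(P, ℂ) →ₗ[ℂ] (K →L[ℂ] K)) → Prop}

/-- **The first half**: Witt index `2`, any field, from the relations. -/
theorem one_ofR (hQ : GQ L.In) (hI : IsClosed {p : P × M | L.In p.1 p.2}) (hG : Cx.Geo X Q)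
    (hP : PurStmt L) (hA : RelR Rl L X Q) (h1 : Key1Stmt L) (h1' : Key1Stmt' L)
    (h2 : Key2Stmt L) (h2' : Key2Stmt' L) (syn : SynStmt L) (hF : FlipStmt L) :
    OneStmtR Rl L := by
  intro E Γ K _ _ _ _ _ _ 𝒰 ι π lam W Ω m q h
  obtain ⟨U11, p11, U12, p12, U21, p21, U22, p22, h, r1, r2⟩ := h
  have two : ∀ c, ∃ l l', L.In c l ∧ L.In c l' ∧ l ≠ l' := fun c => by
    obtain ⟨l, l', hne, h1, h2⟩ := hQ.ln2 c
    exact ⟨l, l', h1, h2, hne⟩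
  have two' : ∀ l, ∃ c c', L.In c l ∧ L.In c' l ∧ c ≠ c' := fun l => by
    obtain ⟨c, c', hne, h1, h2⟩ := hQ.pt2 l
    exact ⟨c, c', h1, h2, hne⟩
  have hI' : IsClosed {p : M × P | flip L.In p.1 p.2} :=
    hI.preimage (f := fun q : M × P => (q.2, q.1)) (by fun_prop)
  rcases hP 𝒰 ι π lam W Ω m q U11 p11 U12 p12 U21 p21 U22 p22 h with ⟨e1, e2⟩ | ⟨e1, e2⟩
  · have hR : ∀ c l, L.In c l → Cx.Rel X Q (U11 c) (U22 l) := fun c l hcl =>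
      hA (U11 c) (U22 l) (ul_of_sp (by rw [← e1]; exact h.u11.ul c))
        (ul_of_sp (by rw [← e2]; exact h.u22.ul l)) (h.i11 c l hcl) (r1 c)
    obtain ⟨Ec, F, hl, -, -⟩ := straight_cx hG two two' h e1 e2 hR
    obtain ⟨a1, a2, a3⟩ := gq_com hQ hQ hI hl.pl hl.e.agr hl.f.agr
      (fun c l hc => (syn _ _ (hl.pl c l hc)).1) (fun c l hc => (syn _ _ (hl.pl c l hc)).2)
      (h1 𝒰 ι π lam W Ω m q Ec F hl) (h2 𝒰 ι π lam W Ω m q Ec F hl)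
    exact ⟨Ec, F, hl, a1, a2, a3⟩
  · have hR : ∀ c l, L.In c l → Cx.Rel X Q (U21 l) (U12 c) := fun c l hcl =>
      hA (U21 l) (U12 c) (ul_of_sp (by rw [← e2]; exact h.u21.ul l))
        (ul_of_sp (by rw [← e1]; exact h.u12.ul c)) (h.i12 c l hcl) (r2 l)
    obtain ⟨Ec, F, hl, -, -⟩ := flipped_cx hG two two' h e1 e2 hR
    have hn : Nontrivial K := ⟨Ω, 0, fun h0 => by
      have := h.base.pic.nΩ
      rw [h0, norm_zero] at this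
      exact zero_ne_one this⟩
    obtain ⟨a1, a2, a3⟩ := gq_com hQ hQ.dual hI' hl.pl hl.e.agr hl.f.agr
      (fun c l hc => (syn _ _ (pl_flip (hl.pl c l hc))).2)
      (fun c l hc => (syn _ _ (pl_flip (hl.pl c l hc))).1)
      (h1' 𝒰 ι π lam W Ω m q Ec F hl) (h2' 𝒰 ι π lam W Ω m q Ec F hl)
    exact (hF Ec F hl.pl hl.e.agr hl.f.agr ⟨a1, a2, a3⟩).elim

end main

/-! ### The two legs -/

section tw

variable {K K' : Type} [NormedAddCommGroup K] [InnerProductSpace ℂ K] [CompleteSpace K]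
  [NormedAddCommGroup K'] [InnerProductSpace ℂ K'] [CompleteSpace K'] {u : K ≃ₗᵢ[ℂ] K'}
  {E Γ : Type} [Group E] [TopologicalSpace E] [Group Γ]
  {π : E →* (K →L[ℂ] K)} {lam : Γ →* (K →L[ℂ] K)}
  {W : Set (K →L[ℂ] K)} {Ω : K} {π' : E →* (K' →L[ℂ] K')} {lam' : Γ →* (K' →L[ℂ] K')}
  {W' : Set (K' →L[ℂ] K')} {Ω' : K'} {q : Γ → S} {𝒰 : Ultrafilter ℕ}
  {m : Set Γ → (K →L[ℂ] K)} {ι : S →* E} {L : Lt S P M V₁ V₂}
  {Rl : ∀ {K : Type} [NormedAddCommGroup K] [InnerProductSpace ℂ K],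
      (C(P, ℂ) →ₗ[ℂ] (K →L[ℂ] K)) → Prop}

/-- **Transport of the data of a leg.** -/
theorem tw_hasLegR (hT : TwR Rl) (t : Tw u π lam W Ω π' lam' W' Ω')
    (h : HasLegR Rl L 𝒰 ι π lam W Ω m q) :
    HasLegR Rl L 𝒰 ι π' lam' W' Ω' (fun T => cj u (m T)) q := by
  obtain ⟨U11, p11, U12, p12, U21, p21, U22, p22, h, r1, r2⟩ := h
  exact ⟨_, p11, _, p12, _, p21, _, p22, CL.Tw.tw_legP t h, fun c => hT u _ (r1 c),
    fun l => hT u _ (r2 l)⟩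

end tw

section ex

open Vale.Agent.P092.SR Vale.Agent.P092.H160
open Vale.Agent.P092.RC (KK pic lam₁ lam₂ XX Om)

/-- **[CL-EX]** the concrete picture over a source group `E`: both legs, with `Rl` -/
def ExStmtR (Rl : ∀ {K : Type} [NormedAddCommGroup K] [InnerProductSpace ℂ K],
      (C(P, ℂ) →ₗ[ℂ] (K →L[ℂ] K)) → Prop) (L : Lt S P M V₁ V₂) {E : Type} [Group E]
    [TopologicalSpace E] [IsTopologicalGroup E] [LocallyCompactSpace E]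
    [SecondCountableTopology E] [T2Space E] (ι : S →* E) : Prop :=
  ∀ [MeasurableSpace E] [BorelSpace E] {Γ : Subgroup E} [DiscreteTopology Γ] [Countable Γ]
    [MeasurableSpace (E ⧸ Γ)] [BorelSpace (E ⧸ Γ)] {ν : Measure (E ⧸ Γ)}
    [IsProbabilityMeasure ν] (hν : ∀ g : E, ν.map (fun x => g • x) = ν)
    (_ : H515.St.IsLattice Γ) (_ : ∀ g : Γ, g ≠ 1 → Set.Infinite {y : Γ | ∃ h, y = h * g * h⁻¹})
    {Λ : Type} [Group Λ] [Countable Λ]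
    (_ : ∀ g : Λ, g ≠ 1 → Set.Infinite {y : Λ | ∃ h, y = h * g * h⁻¹})
    {α : Γ →* (Ell2 Λ →L[ℂ] Ell2 Λ)} (hα : Frame α),
    ∃ (𝒰 : Ultrafilter ℕ) (m₁ m₂ : Set Γ → (KK ν Λ →L[ℂ] KK ν Λ)) (q₁ q₂ : Γ → S),
      HasLegR Rl L 𝒰 ι (pic hν hα) (lam₁ ν α) (XX ν Λ ∪ Set.range (lam₂ ν α)) (Om ν Λ) m₁ q₁ ∧
      HasLegR Rl L 𝒰 ι (pic hν hα) (lam₂ ν α) (XX ν Λ ∪ Set.range (lam₁ ν α)) (Om ν Λ) m₂ q₂ ∧
      (∀ γ, q₁ γ ∈ L.Z → γ = 1) ∧ (∀ γ, q₂ γ ∈ L.Z → γ = 1)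

/-- [CL-EX] for the first leg, with `Rl`. -/
def HalfStmtR (Rl : ∀ {K : Type} [NormedAddCommGroup K] [InnerProductSpace ℂ K],
      (C(P, ℂ) →ₗ[ℂ] (K →L[ℂ] K)) → Prop) (L : Lt S P M V₁ V₂) {E : Type} [Group E]
    [TopologicalSpace E] [IsTopologicalGroup E] [LocallyCompactSpace E]
    [SecondCountableTopology E] [T2Space E] (ι : S →* E) : Prop :=
  ∀ [MeasurableSpace E] [BorelSpace E] {Γ : Subgroup E} [DiscreteTopology Γ] [Countable Γ]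
    [MeasurableSpace (E ⧸ Γ)] [BorelSpace (E ⧸ Γ)] {ν : Measure (E ⧸ Γ)}
    [IsProbabilityMeasure ν] (hν : ∀ g : E, ν.map (fun x => g • x) = ν)
    (_ : H515.St.IsLattice Γ) (_ : ∀ g : Γ, g ≠ 1 → Set.Infinite {y : Γ | ∃ h, y = h * g * h⁻¹})
    {Λ : Type} [Group Λ] [Countable Λ]
    (_ : ∀ g : Λ, g ≠ 1 → Set.Infinite {y : Λ | ∃ h, y = h * g * h⁻¹})
    {α : Γ →* (Ell2 Λ →L[ℂ] Ell2 Λ)} (hα : Frame α),
    ∃ (𝒰 : Ultrafilter ℕ) (m : Set Γ → (KK ν Λ →L[ℂ] KK ν Λ)) (q : Γ → S),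
      HasLegR Rl L 𝒰 ι (pic hν hα) (lam₁ ν α) (XX ν Λ ∪ Set.range (lam₂ ν α)) (Om ν Λ) m q ∧
      (∀ γ, q γ ∈ L.Z → γ = 1)

theorem exStmtR_of_half {Rl : ∀ {K : Type} [NormedAddCommGroup K] [InnerProductSpace ℂ K],
      (C(P, ℂ) →ₗ[ℂ] (K →L[ℂ] K)) → Prop} {L : Lt S P M V₁ V₂} {E : Type} [Group E]
    [TopologicalSpace E] [IsTopologicalGroup E] [LocallyCompactSpace E]
    [SecondCountableTopology E] [T2Space E] {ι : S →* E} (hT : TwR Rl)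
    (h : HalfStmtR Rl L ι) : ExStmtR Rl L ι := by
  intro _ _ Γ _ _ _ _ ν _ hν hΓ hicc Λ _ _ hΛ α hα
  obtain ⟨𝒰, m, q, h1, h2⟩ := h hν hΓ hicc hΛ hα
  exact ⟨𝒰, m, _, q, q, h1, tw_hasLegR hT (SD.tw_flK hν hα) h1, h2, h2⟩

end ex

end Vale.Agent.P092.H616.HA
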