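import Vale.Agent.P092.H616.SynD

/-! Synthesis over the reals: the operator forms `Loc`, `Loc0`, both directions, from the
incidence relations `X P = X`, `P X = X` between the letters. -/

set_option linter.unusedSectionVars false

namespace Vale.Agent.P092.H616.Syn

open scoped BigOperators
open Finset Vale.Agent.P092.H702 Vale.Agent.P092.H828.P

variable {n : ℕ}
variable {Y Z : Type*} [TopologicalSpace Y] [CompactSpace Y] [T2Space Y]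
variable [TopologicalSpace Z] [CompactSpace Z] [T2Space Z]
variable {K : Type*} [NormedAddCommGroup K] [InnerProductSpace ℂ K] [CompleteSpace K]

/-- the relations `X P = X` (letters in the order `E`, `F`) and `P X = X` (order `F`, `E`) -/
structure Rel (X : C(Y, Matrix (Fin n) (Fin n) ℝ)) (P : C(Z, Matrix (Fin n) (Fin n) ℝ))
    (E : C(Y, ℂ) →ₗ[ℂ] (K →L[ℂ] K)) (F : C(Z, ℂ) →ₗ[ℂ] (K →L[ℂ] K)) : Prop where
  l : ∀ a b i j, ∑ k, E (a * cx X i k) * F (cx P k j * b) = E (a * cx X i j) * F b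
  r : ∀ a b i j, ∑ k, F (b * cx P i k) * E (cx X k j * a) = F b * E (cx X i j * a)

/-- bounded letters -/
def Bdd (E : C(Y, ℂ) →ₗ[ℂ] (K →L[ℂ] K)) : Prop := ∃ C : ℝ, 0 ≤ C ∧ ∀ f, ‖E f‖ ≤ C * ‖f‖

theorem Bdd.sub {E E' : C(Y, ℂ) →ₗ[ℂ] (K →L[ℂ] K)} (h : Bdd E) (h' : Bdd E') :
    Bdd (E - E') := by
  obtain ⟨C, hC, h⟩ := h
  obtain ⟨C', hC', h'⟩ := h'
  refine ⟨C + C', by positivity, fun f => ?_⟩
  calc ‖(E - E') f‖ = ‖E f - E' f‖ := rfl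
    _ ≤ ‖E f‖ + ‖E' f‖ := norm_sub_le _ _
    _ ≤ (C + C') * ‖f‖ := by rw [add_mul]; exact add_le_add (h f) (h' f)

theorem bdd_of_UL {E : C(Y, ℂ) →ₗ[ℂ] (K →L[ℂ] K)} {p : ℝ} (h : UL E p) : Bdd E :=
  ⟨Real.sqrt |p|, Real.sqrt_nonneg _, fun f => h.norm_le f⟩

/-- the trilinear map of three letters -/
noncomputable def tri (E₁ : C(Y, ℂ) →ₗ[ℂ] (K →L[ℂ] K)) (D : C(Z, ℂ) →ₗ[ℂ] (K →L[ℂ] K))
    (E₂ : C(Y, ℂ) →ₗ[ℂ] (K →L[ℂ] K)) :
    C(Y, ℂ) →ₗ[ℂ] C(Z, ℂ) →ₗ[ℂ] C(Y, ℂ) →ₗ[ℂ] (K →L[ℂ] K) :=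
  LinearMap.mk₂ ℂ (fun a b => (LinearMap.mulLeft ℂ (E₁ a * D b)).comp E₂)
    (by intro a a' b; ext1 c; simp [add_mul, mul_assoc])
    (by intro z a b; ext1 c; simp [mul_assoc])
    (by intro a b b'; ext1 c; simp [mul_add, add_mul, mul_assoc])
    (by intro z a b; ext1 c; simp [mul_assoc])

@[simp] theorem tri_apply (E₁ : C(Y, ℂ) →ₗ[ℂ] (K →L[ℂ] K)) (D : C(Z, ℂ) →ₗ[ℂ] (K →L[ℂ] K))
    (E₂ : C(Y, ℂ) →ₗ[ℂ] (K →L[ℂ] K)) (a : C(Y, ℂ)) (b : C(Z, ℂ)) (a' : C(Y, ℂ)) :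
    tri E₁ D E₂ a b a' = E₁ a * D b * E₂ a' := rfl

theorem tri_bdd {E₁ : C(Y, ℂ) →ₗ[ℂ] (K →L[ℂ] K)} {D : C(Z, ℂ) →ₗ[ℂ] (K →L[ℂ] K)}
    {E₂ : C(Y, ℂ) →ₗ[ℂ] (K →L[ℂ] K)} (h₁ : Bdd E₁) (hD : Bdd D) (h₂ : Bdd E₂) :
    ∃ M : ℝ, 0 ≤ M ∧ ∀ a b a', ‖tri E₁ D E₂ a b a'‖ ≤ M * ‖a‖ * ‖b‖ * ‖a'‖ := by
  obtain ⟨C₁, hC₁, h₁⟩ := h₁
  obtain ⟨C, hC, hD⟩ := hD
  obtain ⟨C₂, hC₂, h₂⟩ := h₂
  refine ⟨C₁ * C * C₂, by positivity, fun a b a' => ?_⟩
  rw [tri_apply]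
  calc ‖E₁ a * D b * E₂ a'‖ ≤ ‖E₁ a‖ * ‖D b‖ * ‖E₂ a'‖ := norm_mul₃_le
    _ ≤ (C₁ * ‖a‖) * (C * ‖b‖) * (C₂ * ‖a'‖) := by
        gcongr
        · exact h₁ a
        · exact hD b
        · exact h₂ a'
    _ = C₁ * C * C₂ * ‖a‖ * ‖b‖ * ‖a'‖ := by ring

variable {X : C(Y, Matrix (Fin n) (Fin n) ℝ)} {P : C(Z, Matrix (Fin n) (Fin n) ℝ)}
variable {E E' E₁ E₂ : C(Y, ℂ) →ₗ[ℂ] (K →L[ℂ] K)} {F F' F₁ F₂ : C(Z, ℂ) →ₗ[ℂ] (K →L[ℂ] K)}

/-- the core statement, points at the ends -/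
theorem core (hG : Geo X P) {D : C(Z, ℂ) →ₗ[ℂ] (K →L[ℂ] K)} (b₁ : Bdd E₁) (bD : Bdd D)
    (b₂ : Bdd E₂) (h₁ : Rel X P E₁ D) (h₂ : Rel X P E₂ D)
    (h1 : ∀ f f' : C(Y, ℂ), Disjoint (tsupport f) (tsupport f') → E₁ f * D 1 * E₂ f' = 0)
    (f f' : C(Y, ℂ)) (hd : Disjoint (tsupport f) (tsupport f')) (g : C(Z, ℂ)) :
    E₁ f * D g * E₂ f' = 0 := by
  obtain ⟨M, hM, hbd⟩ := tri_bdd b₁ bD b₂
  refine tri_point hG (tri E₁ D E₂) M hM hbd ?_ ?_ h1 f f' hd g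
  · intro a b a' i j
    simp only [tri_apply]
    rw [← Finset.sum_mul, h₁.l]
  · intro a b a' i j
    simp only [tri_apply, mul_assoc]
    rw [← Finset.mul_sum, h₂.r]

/-- the core statement, lines at the ends -/
theorem coreD (hG : Geo X P) {D : C(Y, ℂ) →ₗ[ℂ] (K →L[ℂ] K)} (b₁ : Bdd F₁) (bD : Bdd D)
    (b₂ : Bdd F₂) (h₁ : Rel X P D F₁) (h₂ : Rel X P D F₂)
    (h1 : ∀ f f' : C(Z, ℂ), Disjoint (tsupport f) (tsupport f') → F₁ f * D 1 * F₂ f' = 0)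
    (f f' : C(Z, ℂ)) (hd : Disjoint (tsupport f) (tsupport f')) (g : C(Y, ℂ)) :
    F₁ f * D g * F₂ f' = 0 := by
  obtain ⟨M, hM, hbd⟩ := tri_bdd b₁ bD b₂
  refine tri_line hG (tri F₁ D F₂) M hM hbd ?_ ?_ h1 f f' hd g
  · intro a b a' i j
    simp only [tri_apply]
    rw [← Finset.sum_mul, h₁.r]
  · intro a b a' i j
    simp only [tri_apply, mul_assoc]
    rw [← Finset.mul_sum, h₂.l]

theorem Rel.subF (h : Rel X P E F) (h' : Rel X P E F') : Rel X P E (F - F') := by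
  constructor
  · intro a b i j
    simp only [LinearMap.sub_apply, mul_sub, Finset.sum_sub_distrib]
    rw [h.l, h'.l]
  · intro a b i j
    simp only [LinearMap.sub_apply, sub_mul, Finset.sum_sub_distrib]
    rw [h.r, h'.r]

theorem Rel.subE (h : Rel X P E F) (h' : Rel X P E' F) : Rel X P (E - E') F := by
  constructor
  · intro a b i j
    simp only [LinearMap.sub_apply, sub_mul, Finset.sum_sub_distrib]
    rw [h.l, h'.l]
  · intro a b i j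
    simp only [LinearMap.sub_apply, mul_sub, Finset.sum_sub_distrib]
    rw [h.r, h'.r]

/-- **(1) of [0] over the reals, points at the ends** -/
theorem loc (hG : Geo X P) (b₁ : Bdd E₁) (b₂ : Bdd E₂) (bF : Bdd F) (bF' : Bdd F')
    (h₁ : Rel X P E₁ F) (h₁' : Rel X P E₁ F') (h₂ : Rel X P E₂ F) (h₂' : Rel X P E₂ F')
    (h1 : F 1 = F' 1) : Loc E₁ E₂ F F' := by
  intro f f' hd g
  exact core hG b₁ (bF.sub bF') b₂ (h₁.subF h₁') (h₂.subF h₂')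
    (fun f f' _ => by simp [h1]) f f' hd g

/-- **(5) of [0] over the reals, points at the ends** -/
theorem loc0 (hG : Geo X P) (b₁ : Bdd E₁) (b₂ : Bdd E₂) (bF : Bdd F)
    (h₁ : Rel X P E₁ F) (h₂ : Rel X P E₂ F) (hdis : Dis E₁ E₂) {q : ℂ}
    (h1 : F 1 = q • (1 : K →L[ℂ] K)) : Loc0 E₁ E₂ F := by
  intro f f' hd g
  exact core hG b₁ bF b₂ h₁ h₂ (fun f f' hd => by
    rw [h1, mul_smul_comm, mul_one, smul_mul_assoc, hdis f f' hd, smul_zero]) f f' hd g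

/-- **(1) of [0] over the reals, lines at the ends** -/
theorem locD (hG : Geo X P) (b₁ : Bdd F₁) (b₂ : Bdd F₂) (bE : Bdd E) (bE' : Bdd E')
    (h₁ : Rel X P E F₁) (h₁' : Rel X P E' F₁) (h₂ : Rel X P E F₂) (h₂' : Rel X P E' F₂)
    (h1 : E 1 = E' 1) : Loc F₁ F₂ E E' := by
  intro f f' hd g
  exact coreD hG b₁ (bE.sub bE') b₂ (h₁.subE h₁') (h₂.subE h₂')
    (fun f f' _ => by simp [h1]) f f' hd g

/-- **(5) of [0] over the reals, lines at the ends** -/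
theorem loc0D (hG : Geo X P) (b₁ : Bdd F₁) (b₂ : Bdd F₂) (bE : Bdd E)
    (h₁ : Rel X P E F₁) (h₂ : Rel X P E F₂) (hdis : Dis F₁ F₂) {q : ℂ}
    (h1 : E 1 = q • (1 : K →L[ℂ] K)) : Loc0 F₁ F₂ E := by
  intro f f' hd g
  exact coreD hG b₁ bE b₂ h₁ h₂ (fun f f' hd => by
    rw [h1, mul_smul_comm, mul_one, smul_mul_assoc, hdis f f' hd, smul_zero]) f f' hd g

/-- the right relation is the adjoint of the left one -/
theorem Rel.of_left (hE : ∀ f, E (star f) = star (E f)) (hF : ∀ g, F (star g) = star (F g))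
    (hX : ∀ y i j, X y i j = X y j i) (hP : ∀ z i j, P z i j = P z j i)
    (h : ∀ a b i j, ∑ k, E (a * cx X i k) * F (cx P k j * b) = E (a * cx X i j) * F b) :
    (∀ a b i j, ∑ k, F (b * cx P i k) * E (cx X k j * a) = F b * E (cx X j i * a)) := by
  intro a b i j
  have sx : ∀ i j, star (cx X i j) = cx X i j := by intro i j; ext y; simp
  have sp : ∀ i j, star (cx P i j) = cx P i j := by intro i j; ext y; simp
  have tx : ∀ i j, cx X i j = cx X j i := by intro i j; ext y; simp [hX y i j]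
  have tp : ∀ i j, cx P i j = cx P j i := by intro i j; ext y; simp [hP y i j]
  have := congrArg star (h (star a) (star b) j i)
  rw [star_sum] at this
  simp only [star_mul, ← hE, ← hF, star_star, sx, sp] at this
  calc ∑ k, F (b * cx P i k) * E (cx X k j * a)
      = ∑ k, F (b * cx P k i) * E (cx X j k * a) := by
        refine sum_congr rfl fun k _ => ?_
        rw [tx k j, tp i k]
    _ = _ := this

/-- **`Rel` from its left half** for star-preserving letters. -/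
theorem Rel.mk' (hG : Geo X P) (hE : ∀ f, E (star f) = star (E f))
    (hF : ∀ g, F (star g) = star (F g))
    (h : ∀ a b i j, ∑ k, E (a * cx X i k) * F (cx P k j * b) = E (a * cx X i j) * F b) :
    Rel X P E F := by
  refine ⟨h, fun a b i j => ?_⟩
  have tx : ∀ i j, cx X i j = cx X j i := by
    intro i j; ext y; simp [symm_pt (hG.pt y) i j]
  rw [Rel.of_left hE hF (fun y => symm_pt (hG.pt y)) (fun z => symm_ln (hG.ln z)) h a b i j,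
    tx j i]

end Vale.Agent.P092.H616.Syn
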