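import Vale.Agent.P092.H616.CD
import Vale.Agent.P092.H644.Gr3

/-! # Complex points and lines as hermitian projections (continuous, injective, incidence) -/

set_option linter.unusedSectionVars false

namespace Vale.Agent.P092.H616.CG

open Matrix Module Set Topology Projectivization
open scoped LinearAlgebra.Projectivization
open Vale.Agent.P092.H100.Gr (Gr Fr sp sp_surj sp_quot)
open Vale.Agent.P092.H820 (pj pj_oq)
open Vale.Agent.P092.H644.Gr3 (p1)
open Vale.Agent.P092.H616.Syn (Minor)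
open Vale.Agent.P092.H616.Cx (HP)

variable {n : ℕ}

/-- `M` is the orthogonal projection on `L` -/
structure IsPr (L : Submodule ℂ (Fin n → ℂ)) (M : Matrix (Fin n) (Fin n) ℂ) : Prop where
  symm : Mᴴ = M
  fix : ∀ x ∈ L, M *ᵥ x = x
  mem : ∀ x, M *ᵥ x ∈ L

theorem IsPr.mem_iff {L : Submodule ℂ (Fin n → ℂ)} {M : Matrix (Fin n) (Fin n) ℂ} (h : IsPr L M)
    (x : Fin n → ℂ) : x ∈ L ↔ M *ᵥ x = x :=
  ⟨h.fix x, fun hx => hx ▸ h.mem x⟩

theorem mul_eq_of {L : Submodule ℂ (Fin n → ℂ)} {M N : Matrix (Fin n) (Fin n) ℂ}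
    (h : IsPr L M) (h' : ∀ x, N *ᵥ x ∈ L) : M * N = N := by
  apply Matrix.ext_of_mulVec_single
  intro i
  rw [← Matrix.mulVec_mulVec]
  exact h.fix _ (h' _)

theorem IsPr.idem {L : Submodule ℂ (Fin n → ℂ)} {M : Matrix (Fin n) (Fin n) ℂ} (h : IsPr L M) :
    M * M = M := mul_eq_of h h.mem

theorem IsPr.herm {L : Submodule ℂ (Fin n → ℂ)} {M : Matrix (Fin n) (Fin n) ℂ} (h : IsPr L M)
    (i j : Fin n) : star (M i j) = M j i := by
  have := congrFun (congrFun h.symm j) i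
  rwa [Matrix.conjTranspose_apply] at this

theorem IsPr.unique {L : Submodule ℂ (Fin n → ℂ)} {M M' : Matrix (Fin n) (Fin n) ℂ}
    (h : IsPr L M) (h' : IsPr L M') : M = M' := by
  have h1 : M * M' = M' := mul_eq_of h h'.mem
  have h2 : M' * M = M := mul_eq_of h' h.mem
  have h3 := congrArg Matrix.conjTranspose h1
  rw [Matrix.conjTranspose_mul, h.symm, h'.symm] at h3
  rw [← h2, h3]

/-- the hermitian product -/
noncomputable def hp (v w : Fin n → ℂ) : ℂ := star v ⬝ᵥ w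

theorem hp_star (v w : Fin n → ℂ) : star (hp v w) = hp w v := by
  simp only [hp, dotProduct, star_sum, Pi.star_apply, star_mul', star_star]
  exact Finset.sum_congr rfl fun i _ => mul_comm _ _

/-- the square of the norm -/
noncomputable def ns (v : Fin n → ℂ) : ℝ := ∑ i, ‖v i‖ ^ 2

theorem hp_self (v : Fin n → ℂ) : hp v v = (ns v : ℂ) := by
  simp only [hp, ns, dotProduct, Pi.star_apply]
  push_cast
  exact Finset.sum_congr rfl fun i _ => Complex.conj_mul' (v i)

theorem ns_pos {v : Fin n → ℂ} (hv : v ≠ 0) : 0 < ns v := by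
  obtain ⟨i, hi⟩ : ∃ i, v i ≠ 0 := by
    by_contra hcon
    push Not at hcon
    exact hv (funext hcon)
  calc 0 < ‖v i‖ ^ 2 := by positivity
    _ ≤ _ := Finset.single_le_sum (f := fun i => ‖v i‖ ^ 2) (fun _ _ => sq_nonneg _)
        (Finset.mem_univ i)

theorem hp_ne {v : Fin n → ℂ} (hv : v ≠ 0) : hp v v ≠ 0 := by
  rw [hp_self]
  exact_mod_cast (ns_pos hv).ne'

theorem hp_add (v w w' : Fin n → ℂ) : hp v (w + w') = hp v w + hp v w' := by
  simp [hp]

theorem hp_sub (v w w' : Fin n → ℂ) : hp v (w - w') = hp v w - hp v w' := by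
  simp [hp]

theorem hp_smul (a : ℂ) (v w : Fin n → ℂ) : hp v (a • w) = a * hp v w := by
  simp [hp]

/-- the projection on one vector -/
noncomputable def pr (v : Fin n → ℂ) : Matrix (Fin n) (Fin n) ℂ := (hp v v)⁻¹ • vecMulVec v (star v)

theorem pr_apply (v : Fin n → ℂ) (i j : Fin n) : pr v i j = (hp v v)⁻¹ * (v i * star (v j)) := by
  simp [pr, vecMulVec_apply]

theorem pr_mulVec (v x : Fin n → ℂ) : pr v *ᵥ x = (hp v x / hp v v) • v := by
  ext i
  simp only [Matrix.mulVec, dotProduct, pr_apply, smul_eq_mul, Pi.smul_apply]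
  rw [div_eq_mul_inv]
  conv_rhs => rw [hp]
  simp only [dotProduct, Pi.star_apply, Finset.sum_mul]
  exact Finset.sum_congr rfl fun j _ => by ring

theorem pr_symm (v : Fin n → ℂ) : (pr v)ᴴ = pr v := by
  ext i j
  rw [Matrix.conjTranspose_apply, pr_apply, pr_apply, star_mul', star_mul', star_star, star_inv₀,
    hp_star, mul_comm (star (v j))]

theorem pr_trace {v : Fin n → ℂ} (hv : v ≠ 0) : ∑ j, pr v j j = 1 := by
  simp only [pr_apply]
  rw [← Finset.mul_sum]
  have : ∑ i, v i * star (v i) = hp v v := by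
    simp only [hp, dotProduct, Pi.star_apply]
    exact Finset.sum_congr rfl fun i _ => mul_comm _ _
  rw [this, inv_mul_cancel₀ (hp_ne hv)]

theorem isPr_pr {v : Fin n → ℂ} (hv : v ≠ 0) : IsPr (Submodule.span ℂ {v}) (pr v) where
  symm := pr_symm v
  fix := by
    intro x hx
    obtain ⟨a, rfl⟩ := Submodule.mem_span_singleton.mp hx
    rw [pr_mulVec, hp_smul, mul_div_assoc, div_self (hp_ne hv), mul_one]
  mem := by
    intro x
    rw [pr_mulVec]
    exact Submodule.mem_span_singleton.mpr ⟨_, rfl⟩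

/-- normalised vector -/
noncomputable def nrm (v : Fin n → ℂ) : Fin n → ℂ := ((Real.sqrt (ns v) : ℝ) : ℂ)⁻¹ • v

theorem sq_ns {v : Fin n → ℂ} (hv : v ≠ 0) :
    ((Real.sqrt (ns v) : ℝ) : ℂ)⁻¹ * ((Real.sqrt (ns v) : ℝ) : ℂ)⁻¹ = (hp v v)⁻¹ := by
  rw [← mul_inv, ← Complex.ofReal_mul, Real.mul_self_sqrt (ns_pos hv).le, hp_self]

theorem hp_nrm (v w : Fin n → ℂ) :
    hp (nrm v) (nrm w) = ((Real.sqrt (ns v) : ℝ) : ℂ)⁻¹ * ((Real.sqrt (ns w) : ℝ) : ℂ)⁻¹ * hp v w := by
  have h1 : star (((Real.sqrt (ns v) : ℝ) : ℂ)⁻¹) = ((Real.sqrt (ns v) : ℝ) : ℂ)⁻¹ := by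
    rw [star_inv₀]
    exact congrArg _ (Complex.conj_ofReal _)
  rw [nrm, nrm, hp_smul, ← hp_star, hp_smul, star_mul', hp_star, h1]
  ring

theorem nrm_unit {v : Fin n → ℂ} (hv : v ≠ 0) : hp (nrm v) (nrm v) = 1 := by
  rw [hp_nrm, sq_ns hv, inv_mul_cancel₀ (hp_ne hv)]

theorem vmv_nrm {v : Fin n → ℂ} (hv : v ≠ 0) : pr v = vecMulVec (nrm v) (star (nrm v)) := by
  have h1 : star (((Real.sqrt (ns v) : ℝ) : ℂ)⁻¹) = ((Real.sqrt (ns v) : ℝ) : ℂ)⁻¹ := by
    rw [star_inv₀]
    exact congrArg _ (Complex.conj_ofReal _)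
  ext i j
  rw [pr_apply, vecMulVec_apply, Pi.star_apply, nrm, Pi.smul_apply, Pi.smul_apply, smul_eq_mul,
    smul_eq_mul, star_mul', h1, ← sq_ns hv]
  ring

/-- the second Gram-Schmidt vector -/
noncomputable def ww (a b : Fin n → ℂ) : Fin n → ℂ := b - (hp a b / hp a a) • a

theorem ww_perp {a : Fin n → ℂ} (ha : a ≠ 0) (b : Fin n → ℂ) : hp a (ww a b) = 0 := by
  rw [ww, hp_sub, hp_smul, div_mul_cancel₀ _ (hp_ne ha), sub_self]

theorem ww_ne {v : Fin 2 → Fin n → ℂ} (hv : LinearIndependent ℂ v) : ww (v 0) (v 1) ≠ 0 := by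
  intro h
  have h1 := Fintype.linearIndependent_iff.mp hv
    ![-(hp (v 0) (v 1) / hp (v 0) (v 0)), 1] (by
      rw [Fin.sum_univ_two]
      simp only [Matrix.cons_val_zero, Matrix.cons_val_one, one_smul]
      unfold ww at h
      rw [neg_smul, neg_add_eq_sub]
      exact h) 1
  simp at h1

/-- the projection on a plane -/
noncomputable def pr2 (a b : Fin n → ℂ) : Matrix (Fin n) (Fin n) ℂ := pr a + pr (ww a b)

/-- orthonormal coordinates of a plane -/
theorem pr2_on {v : Fin 2 → Fin n → ℂ} (hv : LinearIndependent ℂ v) :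
    ∃ u w : Fin n → ℂ, hp u u = 1 ∧ hp w w = 1 ∧ hp u w = 0 ∧
      u ∈ Submodule.span ℂ (range v) ∧ w ∈ Submodule.span ℂ (range v) ∧
      pr2 (v 0) (v 1) = vecMulVec u (star u) + vecMulVec w (star w) := by
  have h0 : v 0 ≠ 0 := hv.ne_zero 0
  have h1 := ww_ne hv
  have m0 : v 0 ∈ Submodule.span ℂ (range v) := Submodule.subset_span ⟨0, rfl⟩
  have m1 : v 1 ∈ Submodule.span ℂ (range v) := Submodule.subset_span ⟨1, rfl⟩
  refine ⟨nrm (v 0), nrm (ww (v 0) (v 1)), nrm_unit h0, nrm_unit h1, ?_,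
    Submodule.smul_mem _ _ m0, Submodule.smul_mem _ _ (Submodule.sub_mem _ m1
      (Submodule.smul_mem _ _ m0)), ?_⟩
  · rw [hp_nrm, ww_perp h0, mul_zero]
  · rw [pr2, vmv_nrm h0, vmv_nrm h1]

theorem isPr_pr2 {v : Fin 2 → Fin n → ℂ} (hv : LinearIndependent ℂ v) :
    IsPr (Submodule.span ℂ (range v)) (pr2 (v 0) (v 1)) := by
  have h0 : v 0 ≠ 0 := hv.ne_zero 0
  have h1 := ww_ne hv
  have hp0 := ww_perp h0 (v 1)
  have hp' : hp (ww (v 0) (v 1)) (v 0) = 0 := by rw [← hp_star, hp0, star_zero]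
  have f0 : pr2 (v 0) (v 1) *ᵥ v 0 = v 0 := by
    rw [pr2, Matrix.add_mulVec, pr_mulVec, pr_mulVec, hp', zero_div, zero_smul, add_zero,
      div_self (hp_ne h0), one_smul]
  have fw : pr2 (v 0) (v 1) *ᵥ ww (v 0) (v 1) = ww (v 0) (v 1) := by
    rw [pr2, Matrix.add_mulVec, pr_mulVec, pr_mulVec, hp0, zero_div, zero_smul, zero_add,
      div_self (hp_ne h1), one_smul]
  have f1 : pr2 (v 0) (v 1) *ᵥ v 1 = v 1 := by
    have e : v 1 = ww (v 0) (v 1) + (hp (v 0) (v 1) / hp (v 0) (v 0)) • v 0 := by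
      unfold ww; rw [sub_add_cancel]
    calc pr2 (v 0) (v 1) *ᵥ v 1
        = pr2 (v 0) (v 1) *ᵥ (ww (v 0) (v 1) + (hp (v 0) (v 1) / hp (v 0) (v 0)) • v 0) := by
          rw [← e]
      _ = ww (v 0) (v 1) + (hp (v 0) (v 1) / hp (v 0) (v 0)) • v 0 := by
          rw [Matrix.mulVec_add, Matrix.mulVec_smul, f0, fw]
      _ = v 1 := e.symm
  constructor
  · rw [pr2, Matrix.conjTranspose_add, pr_symm, pr_symm]
  · intro x hx
    induction hx using Submodule.span_induction with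
    | mem x hx =>
      obtain ⟨i, rfl⟩ := hx
      fin_cases i
      · exact f0
      · exact f1
    | zero => exact Matrix.mulVec_zero _
    | add x y _ _ hx hy => rw [Matrix.mulVec_add, hx, hy]
    | smul a x _ hx => rw [Matrix.mulVec_smul, hx]
  · intro x
    rw [pr2, Matrix.add_mulVec, pr_mulVec, pr_mulVec]
    have m0 : v 0 ∈ Submodule.span ℂ (range v) := Submodule.subset_span ⟨0, rfl⟩
    have m1 : v 1 ∈ Submodule.span ℂ (range v) := Submodule.subset_span ⟨1, rfl⟩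
    refine Submodule.add_mem _ (Submodule.smul_mem _ _ m0) (Submodule.smul_mem _ _ ?_)
    exact Submodule.sub_mem _ m1 (Submodule.smul_mem _ _ m0)

theorem minor_of (u w u' w' : Fin n → ℂ) : Minor (vecMulVec u u' + vecMulVec w w') := by
  intro i k s j r l
  simp only [Matrix.add_apply, vecMulVec_apply]
  ring

theorem vmv_cont {Y : Type*} [TopologicalSpace Y] {f : Y → Fin n → ℂ} (hf : Continuous f) :
    Continuous fun y => vecMulVec (f y) (star (f y)) := by
  refine continuous_pi fun i => continuous_pi fun j => ?_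
  simp only [vecMulVec_apply, Pi.star_apply]
  exact ((continuous_apply i).comp hf).mul ((continuous_apply j).comp hf).star

theorem hp_cont {Y : Type*} [TopologicalSpace Y] {f g : Y → Fin n → ℂ} (hf : Continuous f)
    (hg : Continuous g) : Continuous fun y => hp (f y) (g y) := by
  simp only [hp, dotProduct, Pi.star_apply]
  refine continuous_finsetSum _ fun i _ => ?_
  exact ((continuous_apply i).comp hf).star.mul ((continuous_apply i).comp hg)

theorem pr_cont {Y : Type*} [TopologicalSpace Y] {f : Y → Fin n → ℂ} (hf : Continuous f)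
    (h0 : ∀ y, f y ≠ 0) : Continuous fun y => pr (f y) :=
  ((hp_cont hf hf).inv₀ fun y => hp_ne (h0 y)).smul (vmv_cont hf)

/-! ### points -/

/-- the projection matrix of a point -/
noncomputable def pp (x : ℙ ℂ (Fin n → ℂ)) : Matrix (Fin n) (Fin n) ℂ := pr x.rep

theorem isPr_pp (x : ℙ ℂ (Fin n → ℂ)) : IsPr x.submodule (pp x) := by
  rw [Projectivization.submodule_eq]
  exact isPr_pr x.rep_nonzero

theorem pp_mk (v : Fin n → ℂ) (hv : v ≠ 0) : pp (Projectivization.mk ℂ v hv) = pr v := by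
  apply (isPr_pp _).unique
  rw [Projectivization.submodule_mk]
  exact isPr_pr hv

theorem hp_pp (x : ℙ ℂ (Fin n → ℂ)) : HP 1 (pp x) where
  herm := (isPr_pp x).herm
  idem := (isPr_pp x).idem
  tr := by rw [pp, pr_trace x.rep_nonzero, Complex.ofReal_one]

/-- a unit vector of a point -/
theorem pp_on (x : ℙ ℂ (Fin n → ℂ)) :
    ∃ u : Fin n → ℂ, hp u u = 1 ∧ u ∈ x.submodule ∧ pp x = vecMulVec u (star u) := by
  refine ⟨nrm x.rep, nrm_unit x.rep_nonzero, ?_, vmv_nrm x.rep_nonzero⟩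
  rw [Projectivization.submodule_eq]
  exact Submodule.smul_mem _ _ (Submodule.mem_span_singleton_self _)

theorem pp_cont : Continuous (pp : ℙ ℂ (Fin n → ℂ) → Matrix (Fin n) (Fin n) ℂ) := by
  rw [(pj_oq (k := ℂ) (ι := Fin n)).isQuotientMap.continuous_iff]
  have : (pp ∘ pj ℂ (Fin n)) = fun v : {v : Fin n → ℂ // v ≠ 0} => pr v.1 := by
    funext v
    exact pp_mk v.1 v.2
  rw [this]
  exact pr_cont continuous_subtype_val fun v => v.2

theorem pp_inj : Function.Injective (pp : ℙ ℂ (Fin n → ℂ) → Matrix (Fin n) (Fin n) ℂ) := by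
  intro x y h
  apply Projectivization.submodule_injective
  ext v
  rw [(isPr_pp x).mem_iff, (isPr_pp y).mem_iff, h]

/-! ### lines -/

/-- the projection matrix of a line -/
noncomputable def gp (L : Gr ℂ (Fin n) 2) : Matrix (Fin n) (Fin n) ℂ :=
  pr2 ((Classical.choose (sp_surj L)).1 0) ((Classical.choose (sp_surj L)).1 1)

theorem isPr_gp (L : Gr ℂ (Fin n) 2) : IsPr L.1 (gp L) := by
  have h := isPr_pr2 (Classical.choose (sp_surj L)).2
  have e : Submodule.span ℂ (range (Classical.choose (sp_surj L)).1) = L.1 :=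
    congrArg Subtype.val (Classical.choose_spec (sp_surj L))
  rw [e] at h
  exact h

/-- an orthonormal basis of a line -/
theorem gp_on (L : Gr ℂ (Fin n) 2) :
    ∃ u w : Fin n → ℂ, hp u u = 1 ∧ hp w w = 1 ∧ hp u w = 0 ∧ u ∈ L.1 ∧ w ∈ L.1 ∧
      gp L = vecMulVec u (star u) + vecMulVec w (star w) := by
  have h := pr2_on (Classical.choose (sp_surj L)).2
  have e : Submodule.span ℂ (range (Classical.choose (sp_surj L)).1) = L.1 :=
    congrArg Subtype.val (Classical.choose_spec (sp_surj L))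
  rw [e] at h
  exact h

theorem gp_minor (L : Gr ℂ (Fin n) 2) : Minor (gp L) := by
  obtain ⟨u, w, _, _, _, _, _, h⟩ := gp_on L
  rw [h]
  exact minor_of u w _ _

theorem tr_of {u : Fin n → ℂ} (h : hp u u = 1) : ∑ j, vecMulVec u (star u) j j = 1 := by
  rw [← h]
  simp only [hp, dotProduct, vecMulVec_apply]
  exact Finset.sum_congr rfl fun i _ => mul_comm _ _

theorem hp_gp (L : Gr ℂ (Fin n) 2) : HP 2 (gp L) where
  herm := (isPr_gp L).herm
  idem := (isPr_gp L).idem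
  tr := by
    obtain ⟨u, w, hu, hw, _, _, _, h⟩ := gp_on L
    rw [h]
    simp only [Matrix.add_apply]
    rw [Finset.sum_add_distrib, tr_of hu, tr_of hw]
    norm_num

theorem gp_sp (v : Fr ℂ (Fin n) 2) : gp (sp v) = pr2 (v.1 0) (v.1 1) :=
  (isPr_gp (sp v)).unique (isPr_pr2 v.2)

theorem gp_cont : Continuous (gp : Gr ℂ (Fin n) 2 → Matrix (Fin n) (Fin n) ℂ) := by
  rw [(sp_quot (k := ℂ) (ι := Fin n) (j := 2)).continuous_iff]
  have : (gp ∘ sp) = fun v : Fr ℂ (Fin n) 2 => pr2 (v.1 0) (v.1 1) := by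
    funext v
    exact gp_sp v
  rw [this]
  have hv : Continuous fun v : Fr ℂ (Fin n) 2 => v.1 := H100.Gr.fr_val_cont
  have h0 : Continuous fun v : Fr ℂ (Fin n) 2 => v.1 0 := (continuous_apply 0).comp hv
  have h1 : Continuous fun v : Fr ℂ (Fin n) 2 => v.1 1 := (continuous_apply 1).comp hv
  have n0 : ∀ v : Fr ℂ (Fin n) 2, v.1 0 ≠ 0 := fun v => v.2.ne_zero 0
  refine (pr_cont h0 n0).add (pr_cont ?_ fun v => ww_ne v.2)
  have hd : Continuous fun v : Fr ℂ (Fin n) 2 => hp (v.1 0) (v.1 1) / hp (v.1 0) (v.1 0) :=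
    (hp_cont h0 h1).div (hp_cont h0 h0) fun v => hp_ne (n0 v)
  exact h1.sub (hd.smul h0)

theorem gp_inj : Function.Injective (gp : Gr ℂ (Fin n) 2 → Matrix (Fin n) (Fin n) ℂ) := by
  intro x y h
  apply Subtype.ext
  ext v
  rw [(isPr_gp x).mem_iff, (isPr_gp y).mem_iff, h]

/-- incidence -/
theorem inc_iff (x : ℙ ℂ (Fin n → ℂ)) (L : Gr ℂ (Fin n) 2) :
    gp L * pp x = pp x ↔ (p1 x).1 ≤ L.1 := by
  constructor
  · intro h v hv
    have hv' : pp x *ᵥ v = v := (isPr_pp x).fix v hv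
    rw [(isPr_gp L).mem_iff]
    conv_lhs => rw [← hv']
    rw [Matrix.mulVec_mulVec, h, hv']
  · intro h
    exact mul_eq_of (isPr_gp L) fun v => h ((isPr_pp x).mem v)

end Vale.Agent.P092.H616.CG
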