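import Vale.Agent.P092.H616.Dict
import Vale.Agent.P092.SP.Flip

/-!
P092, TEAM P, TRACK C (helper616): `Sp_4(ℂ)`. The letters of a leg together with Lemma O for the
letters of points (`O2`), transport along a unitary, both legs from the first one.
-/

set_option linter.all false

open scoped InnerProductSpace ENNReal LinearAlgebra.Projectivization ZeroAtInfty
open Filter Topology ContinuousLinearMap MeasureTheory TopologicalSpace Matrix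

namespace Vale.Agent.P092.H616.CO

open Vale.Agent.P092.RC (Cm TRN Moore GG PG YY y0 Tw cj cj_ap)
open Vale.Agent.P092.SR Vale.Agent.P092.H160
open Vale.Agent.P092.RC (KK pic lam₁ lam₂ XX Om)
open Vale.Agent.P092.H35 (sp)
open Vale.Agent.P092.SP4
open Vale.Agent.P092.SP
open Vale.Agent.P092.H232 (Nin)
open Vale.Agent.P092.H616.CH (O2 XC PC)

/-- the data of one leg over `ℂ`, with Lemma O for the letters of points -/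
def HasLegO {E Γ K : Type} [Group E] [TopologicalSpace E] [Group Γ] [NormedAddCommGroup K]
    [InnerProductSpace ℂ K] [CompleteSpace K] [MeasurableSpace ℂ] (μ : Measure ℂ) (w : ℂˣ)
    (𝒰 : Ultrafilter ℕ) (ι : S4 ℂ →* E) (a : E →* PG ℂ 4) (π : E →* (K →L[ℂ] K))
    (lam : Γ →* (K →L[ℂ] K)) (W : Set (K →L[ℂ] K)) (Ω : K) (m : Set Γ → (K →L[ℂ] K))
    (q : Γ → S4 ℂ) : Prop :=
  ∃ (U11 : YY ℂ 3 → (C(YY ℂ 3, ℂ) →ₗ[ℂ] (K →L[ℂ] K))) (p11 : ℝ)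
    (U12 : YY ℂ 3 → (C(LL ℂ, ℂ) →ₗ[ℂ] (K →L[ℂ] K))) (p12 : ℝ)
    (U21 : LL ℂ → (C(YY ℂ 3, ℂ) →ₗ[ℂ] (K →L[ℂ] K))) (p21 : ℝ)
    (U22 : LL ℂ → (C(LL ℂ, ℂ) →ₗ[ℂ] (K →L[ℂ] K))) (p22 : ℝ),
    LegP μ w 𝒰 ι a π lam W Ω m q U11 p11 U12 p12 U21 p21 U22 p22 ∧
      (∀ c, O2 (U11 c)) ∧ ∀ l, O2 (U21 l)

/-- the relations of a pair of letters of mass one: point letter `E`, line letter `F`
(helper378, helper878, helper283) -/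
def RelA : Prop :=
  ∀ {K : Type} [NormedAddCommGroup K] [InnerProductSpace ℂ K] [CompleteSpace K]
    (E : C(YY ℂ 3, ℂ) →ₗ[ℂ] (K →L[ℂ] K)) (F : C(LL ℂ, ℂ) →ₗ[ℂ] (K →L[ℂ] K)),
    H828.P.UL E 1 → H828.P.UL F 1 → (∀ f g, Nin on f g → E f * F g = 0) → O2 E →
    Cx.Rel XC PC E F

/-- from one leg to a straight leg in which everything commutes -/
def OneStmtO [MeasurableSpace ℂ] (μ : Measure ℂ) : Prop :=
  ∀ {E Γ K : Type} [Group E] [TopologicalSpace E] [Group Γ] [NormedAddCommGroup K]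
    [InnerProductSpace ℂ K] [CompleteSpace K] (w : ℂˣ) (𝒰 : Ultrafilter ℕ) (ι : S4 ℂ →* E)
    (a : E →* PG ℂ 4) (π : E →* (K →L[ℂ] K)) (lam : Γ →* (K →L[ℂ] K)) (W : Set (K →L[ℂ] K))
    (Ω : K) (m : Set Γ → (K →L[ℂ] K)) (q : Γ → S4 ℂ),
    HasLegO μ w 𝒰 ι a π lam W Ω m q →
    ∃ (Ec : YY ℂ 3 → (C(YY ℂ 3, ℂ) →⋆ₐ[ℂ] (K →L[ℂ] K)))
      (F : LL ℂ → (C(LL ℂ, ℂ) →⋆ₐ[ℂ] (K →L[ℂ] K))),
      LegComm μ w 𝒰 ι a π lam W Ω m q Ec F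

section ex

/-- [P-EX] for the first leg, with Lemma O. -/
def HalfStmtO [MeasurableSpace ℂ] (μ : Measure ℂ) {E : Type} [Group E] [TopologicalSpace E]
    [IsTopologicalGroup E] [LocallyCompactSpace E] [SecondCountableTopology E] [T2Space E]
    (ι : S4 ℂ →* E) (a : E →* PG ℂ 4) : Prop :=
  ∀ [MeasurableSpace E] [BorelSpace E] {Γ : Subgroup E} [DiscreteTopology Γ] [Countable Γ]
    [MeasurableSpace (E ⧸ Γ)] [BorelSpace (E ⧸ Γ)] {ν : Measure (E ⧸ Γ)}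
    [IsProbabilityMeasure ν] (hν : ∀ g : E, ν.map (fun x => g • x) = ν)
    (_ : H515.St.IsLattice Γ) (_ : ∀ g : Γ, g ≠ 1 → Set.Infinite {y : Γ | ∃ h, y = h * g * h⁻¹})
    {Λ : Type} [Group Λ] [Countable Λ]
    (_ : ∀ g : Λ, g ≠ 1 → Set.Infinite {y : Λ | ∃ h, y = h * g * h⁻¹})
    {α : Γ →* (Ell2 Λ →L[ℂ] Ell2 Λ)} (hα : Frame α),
    ∃ (w : ℂˣ) (𝒰 : Ultrafilter ℕ) (m : Set Γ → (KK ν Λ →L[ℂ] KK ν Λ)) (q : Γ → S4 ℂ),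
      HasLegO μ w 𝒰 ι a (pic hν hα) (lam₁ ν α) (XX ν Λ ∪ Set.range (lam₂ ν α)) (Om ν Λ) m q ∧
      (∀ γ, sp ℂ 4 (q γ).1 = 1 → γ = 1)

/-- the concrete picture over a source group `E`: both legs, with Lemma O -/
def ExStmtO [MeasurableSpace ℂ] (μ : Measure ℂ) {E : Type} [Group E] [TopologicalSpace E]
    [IsTopologicalGroup E] [LocallyCompactSpace E] [SecondCountableTopology E] [T2Space E]
    (ι : S4 ℂ →* E) (a : E →* PG ℂ 4) : Prop :=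
  ∀ [MeasurableSpace E] [BorelSpace E] {Γ : Subgroup E} [DiscreteTopology Γ] [Countable Γ]
    [MeasurableSpace (E ⧸ Γ)] [BorelSpace (E ⧸ Γ)] {ν : Measure (E ⧸ Γ)}
    [IsProbabilityMeasure ν] (hν : ∀ g : E, ν.map (fun x => g • x) = ν)
    (_ : H515.St.IsLattice Γ) (_ : ∀ g : Γ, g ≠ 1 → Set.Infinite {y : Γ | ∃ h, y = h * g * h⁻¹})
    {Λ : Type} [Group Λ] [Countable Λ]
    (_ : ∀ g : Λ, g ≠ 1 → Set.Infinite {y : Λ | ∃ h, y = h * g * h⁻¹})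
    {α : Γ →* (Ell2 Λ →L[ℂ] Ell2 Λ)} (hα : Frame α),
    ∃ (w : ℂˣ) (𝒰 : Ultrafilter ℕ) (m₁ m₂ : Set Γ → (KK ν Λ →L[ℂ] KK ν Λ)) (q₁ q₂ : Γ → S4 ℂ),
      HasLegO μ w 𝒰 ι a (pic hν hα) (lam₁ ν α) (XX ν Λ ∪ Set.range (lam₂ ν α)) (Om ν Λ) m₁ q₁ ∧
      HasLegO μ w 𝒰 ι a (pic hν hα) (lam₂ ν α) (XX ν Λ ∪ Set.range (lam₁ ν α)) (Om ν Λ) m₂ q₂ ∧
      (∀ γ, sp ℂ 4 (q₁ γ).1 = 1 → γ = 1) ∧ (∀ γ, sp ℂ 4 (q₂ γ).1 = 1 → γ = 1)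

end ex

section tw

variable {K K' : Type} [NormedAddCommGroup K] [InnerProductSpace ℂ K] [CompleteSpace K]
  [NormedAddCommGroup K'] [InnerProductSpace ℂ K'] [CompleteSpace K'] {u : K ≃ₗᵢ[ℂ] K'}
  {E Γ : Type} [Group E] [TopologicalSpace E] [Group Γ]
  {π : E →* (K →L[ℂ] K)} {lam : Γ →* (K →L[ℂ] K)}
  {W : Set (K →L[ℂ] K)} {Ω : K} {π' : E →* (K' →L[ℂ] K')} {lam' : Γ →* (K' →L[ℂ] K')}
  {W' : Set (K' →L[ℂ] K')} {Ω' : K'} {w : ℂˣ} {q : Γ → S4 ℂ} {𝒰 : Ultrafilter ℕ}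
  {m : Set Γ → (K →L[ℂ] K)} {ι : S4 ℂ →* E} {a : E →* PG ℂ 4}

theorem tw_O2 {U : C(YY ℂ 3, ℂ) →ₗ[ℂ] (K →L[ℂ] K)} (u : K ≃ₗᵢ[ℂ] K') (h : O2 U) :
    O2 (SP.Tw.cjU u U) := by
  intro r f g C δ hδ h1 h2
  have e : ∀ i, SP.Tw.cjU u U (f i) * SP.Tw.cjU u U (g i) = cj u (U (f i) * U (g i)) := fun i => by
    rw [SP.Tw.cjU_ap, SP.Tw.cjU_ap, map_mul]
  rw [Finset.sum_congr rfl fun i _ => e i, ← map_sum, h r f g C δ hδ h1 h2, map_zero]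

/-- **Transport of the data of a leg.** -/
theorem tw_hasLegO [MeasurableSpace ℂ] {μ : Measure ℂ} (t : Tw u π lam W Ω π' lam' W' Ω')
    (h : HasLegO μ w 𝒰 ι a π lam W Ω m q) :
    HasLegO μ w 𝒰 ι a π' lam' W' Ω' (fun S => cj u (m S)) q := by
  obtain ⟨U11, p11, U12, p12, U21, p21, U22, p22, h, h1, h2⟩ := h
  exact ⟨_, p11, _, p12, _, p21, _, p22, SP.Tw.tw_legP t h, fun c => tw_O2 u (h1 c),
    fun l => tw_O2 u (h2 l)⟩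

end tw

theorem exStmtO_of_half [MeasurableSpace ℂ] {μ : Measure ℂ} {E : Type} [Group E]
    [TopologicalSpace E] [IsTopologicalGroup E] [LocallyCompactSpace E]
    [SecondCountableTopology E] [T2Space E] {ι : S4 ℂ →* E} {a : E →* PG ℂ 4}
    (h : HalfStmtO μ ι a) : ExStmtO μ ι a := by
  intro _ _ Γ _ _ _ _ ν _ hν hΓ hicc Λ _ _ hΛ α hα
  obtain ⟨w, 𝒰, m, q, h1, h2⟩ := h hν hΓ hicc hΛ hα
  exact ⟨w, 𝒰, m, _, q, q, h1, tw_hasLegO (SD.tw_flK hν hα) h1, h2, h2⟩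

end Vale.Agent.P092.H616.CO
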