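import Vale.Agent.P092.H616.CH

/-!
P092, TEAM P, TRACK C (helper616): the literal `O2` (the point-point operator is killed by
functions of second order in `ω(x, x')` which vanish near the diagonal), and the dictionary to
vectors of norm one.
-/

set_option linter.all false

open Matrix

namespace Vale.Agent.P092.H616.CH

open Vale.Agent.P092.RC (YY)
open Vale.Agent.P092.SP4
open Vale.Agent.P092.H616.CG (pp pr pp_mk pr_apply hp hp_self ns)

variable {K : Type*} [NormedAddCommGroup K] [InnerProductSpace ℂ K]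

/-- the family is `O(|ω(x, x')|²)` -/
def Sec (C : ℝ) {r : ℕ} (u v : Fin r → C(YY ℂ 3, ℂ)) : Prop :=
  ∀ x y, ‖∑ i, u i x * v i y‖ ≤ C * ∑ a, ∑ b, ‖((XC x)ᵀ * J4 ℂ * XC y) a b‖ ^ 2

/-- the family vanishes near the diagonal -/
def Far (δ : ℝ) {r : ℕ} (u v : Fin r → C(YY ℂ 3, ℂ)) : Prop :=
  ∀ x y, (∀ a b, ‖XC x a b - XC y a b‖ < δ) → ∑ i, u i x * v i y = 0

/-- Lemma O for one letter of points, over `ℂ` -/
def O2 (E : C(YY ℂ 3, ℂ) →ₗ[ℂ] (K →L[ℂ] K)) : Prop :=
  ∀ (r : ℕ) (u v : Fin r → C(YY ℂ 3, ℂ)) (C δ : ℝ), 0 < δ → Sec C u v → Far δ u v →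
    ∑ i, E (u i) * E (v i) = 0

theorem ns_ge {x : Fin 4 → ℂ} (hx : ‖x‖ = 1) : 1 ≤ ns x := by
  obtain ⟨a, ha⟩ : ∃ a, ‖x a‖ = 1 := by
    obtain ⟨a, -, h⟩ := Finset.exists_max_image Finset.univ (fun a => ‖x a‖)
      (Finset.univ_nonempty (α := Fin 4))
    refine ⟨a, le_antisymm (hx ▸ norm_le_pi_norm x a) ?_⟩
    rw [← hx]
    exact (pi_norm_le_iff_of_nonneg (norm_nonneg _)).2 fun b => h b (Finset.mem_univ b)
  calc (1 : ℝ) = ‖x a‖ ^ 2 := by rw [ha, one_pow]
    _ ≤ _ := Finset.single_le_sum (f := fun a => ‖x a‖ ^ 2) (fun _ _ => sq_nonneg _)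
        (Finset.mem_univ a)

theorem en_le {x : Fin 4 → ℂ} (hx : ‖x‖ = 1) (a : Fin 4) : ‖x a‖ ≤ 1 := hx ▸ norm_le_pi_norm x a

theorem om_le {x y : Fin 4 → ℂ} (hx : ‖x‖ = 1) (hy : ‖y‖ = 1) : ‖om x y‖ ≤ 4 := by
  have h : ∀ a b, ‖x a * y b‖ ≤ 1 := fun a b => by
    rw [norm_mul]
    exact mul_le_one₀ (en_le hx a) (norm_nonneg _) (en_le hy b)
  rw [om_eq]
  calc ‖x 0 * y 3 + x 1 * y 2 - x 2 * y 1 - x 3 * y 0‖
      ≤ ‖x 0 * y 3 + x 1 * y 2 - x 2 * y 1‖ + ‖x 3 * y 0‖ := norm_sub_le _ _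
    _ ≤ ‖x 0 * y 3 + x 1 * y 2‖ + ‖x 2 * y 1‖ + ‖x 3 * y 0‖ := by
        gcongr; exact norm_sub_le _ _
    _ ≤ ‖x 0 * y 3‖ + ‖x 1 * y 2‖ + ‖x 2 * y 1‖ + ‖x 3 * y 0‖ := by
        gcongr; exact norm_add_le _ _
    _ ≤ 1 + 1 + 1 + 1 := by gcongr <;> apply h
    _ = 4 := by norm_num

theorem XC_mk (x : Fin 4 → ℂ) (hx : x ≠ 0) (a b : Fin 4) :
    XC (Projectivization.mk ℂ x hx) a b = ((ns x : ℝ) : ℂ)⁻¹ * (x a * star (x b)) := by
  change pp (Projectivization.mk ℂ x hx) a b = _
  rw [pp_mk, pr_apply, hp_self]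

theorem XJX (x y : Fin 4 → ℂ) (hx : x ≠ 0) (hy : y ≠ 0) (a b : Fin 4) :
    ((XC (Projectivization.mk ℂ x hx))ᵀ * J4 ℂ * XC (Projectivization.mk ℂ y hy)) a b =
      ((ns x : ℝ) : ℂ)⁻¹ * ((ns y : ℝ) : ℂ)⁻¹ * (star (x a) * star (y b) * om x y) := by
  simp only [Matrix.mul_apply, Matrix.transpose_apply, XC_mk, Fin.sum_univ_four, J4,
    Matrix.of_apply, Matrix.cons_val', Matrix.cons_val_zero, Matrix.cons_val_one, om_eq]
  simp
  ring

theorem dict {r : ℕ} {u v : Fin r → C(YY ℂ 3, ℂ)} {C δ : ℝ} (hδ : 0 < δ)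
    (h1 : ∀ x y, ‖∑ i, u i x * v i y‖ ≤ C * ∑ a, ∑ b, ‖((XC x)ᵀ * J4 ℂ * XC y) a b‖ ^ 2)
    (h2 : ∀ x y, (∀ a b, ‖XC x a b - XC y a b‖ < δ) → ∑ i, u i x * v i y = 0) :
    ∃ C₀ δ₀ : ℝ, 0 ≤ C₀ ∧ 0 < δ₀ ∧ δ₀ ≤ 1 ∧ ∀ (x y : Fin 4 → ℂ) (hx : x ≠ 0) (hy : y ≠ 0),
      ‖x‖ = 1 → ‖y‖ = 1 →
      ‖∑ i, u i (Projectivization.mk ℂ x hx) * v i (Projectivization.mk ℂ y hy)‖
        ≤ C₀ * ‖om x y‖ ∧
      (∑ i, u i (Projectivization.mk ℂ x hx) * v i (Projectivization.mk ℂ y hy) ≠ 0 →
        ∃ a b, δ₀ ≤ ‖x a * y b - x b * y a‖) := by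
  refine ⟨64 * |C|, min 1 (δ / 13), by positivity, lt_min one_pos (by positivity),
    min_le_left _ _, ?_⟩
  intro x y hx hy nx ny
  have gx := ns_ge nx
  have gy := ns_ge ny
  have ix : ‖((ns x : ℝ) : ℂ)⁻¹‖ ≤ 1 := by
    rw [norm_inv, Complex.norm_real, Real.norm_eq_abs, abs_of_pos (by linarith)]
    exact inv_le_one_of_one_le₀ gx
  have iy : ‖((ns y : ℝ) : ℂ)⁻¹‖ ≤ 1 := by
    rw [norm_inv, Complex.norm_real, Real.norm_eq_abs, abs_of_pos (by linarith)]
    exact inv_le_one_of_one_le₀ gy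
  constructor
  · refine (h1 _ _).trans ?_
    have e1 : ∀ a b : Fin 4, ‖((XC (Projectivization.mk ℂ x hx))ᵀ * J4 ℂ *
        XC (Projectivization.mk ℂ y hy)) a b‖ ^ 2 ≤ 4 * ‖om x y‖ := by
      intro a b
      have e0 : ‖((XC (Projectivization.mk ℂ x hx))ᵀ * J4 ℂ *
          XC (Projectivization.mk ℂ y hy)) a b‖ ≤ ‖om x y‖ := by
        rw [XJX, norm_mul, norm_mul, norm_mul, norm_mul, norm_star, norm_star]
        calc _ ≤ 1 * 1 * (1 * 1 * ‖om x y‖) := by
              gcongr
              · exact en_le nx a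
              · exact en_le ny b
          _ = _ := by ring
      calc _ ≤ ‖om x y‖ ^ 2 := by gcongr
        _ = ‖om x y‖ * ‖om x y‖ := sq _
        _ ≤ 4 * ‖om x y‖ := mul_le_mul_of_nonneg_right (om_le nx ny) (norm_nonneg _)
    calc _ ≤ |C| * ∑ a, ∑ b, ‖((XC (Projectivization.mk ℂ x hx))ᵀ * J4 ℂ *
          XC (Projectivization.mk ℂ y hy)) a b‖ ^ 2 :=
          mul_le_mul_of_nonneg_right (le_abs_self C)
            (Finset.sum_nonneg fun _ _ => Finset.sum_nonneg fun _ _ => sq_nonneg _)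
      _ ≤ |C| * ∑ _a : Fin 4, ∑ _b : Fin 4, 4 * ‖om x y‖ := by
          gcongr with a _ b _
          exact e1 a b
      _ = 64 * |C| * ‖om x y‖ := by
          simp only [Finset.sum_const, Finset.card_univ, Fintype.card_fin, nsmul_eq_mul]
          push_cast
          ring
  · intro hne
    by_contra hcon
    push Not at hcon
    refine hne (h2 _ _ fun a b => ?_)
    set t := min 1 (δ / 13) with ht
    have t1 : t ≤ 1 := min_le_left _ _
    have t2 : t ≤ δ / 13 := min_le_right _ _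
    have t0 : 0 < t := lt_min one_pos (by positivity)
    have key : XC (Projectivization.mk ℂ x hx) a b - XC (Projectivization.mk ℂ y hy) a b
        = ((ns x : ℝ) : ℂ)⁻¹ * ((ns y : ℝ) : ℂ)⁻¹ * ∑ c,
          ((x a * y c - x c * y a) * (star (x c) * star (y b))
            + (x c * y a) * star (x b * y c - x c * y b)
            + (x a * y c - x c * y a) * star (x b * y c - x c * y b)) := by
      have nx0 : ((ns x : ℝ) : ℂ) ≠ 0 := by exact_mod_cast (by linarith : ns x ≠ 0)
      have ny0 : ((ns y : ℝ) : ℂ) ≠ 0 := by exact_mod_cast (by linarith : ns y ≠ 0)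
      have ex : ((ns x : ℝ) : ℂ) = ∑ c, x c * star (x c) := by
        rw [← hp_self]
        simp only [hp, dotProduct, Pi.star_apply]
        exact Finset.sum_congr rfl fun i _ => mul_comm _ _
      have ey : ((ns y : ℝ) : ℂ) = ∑ c, y c * star (y c) := by
        rw [← hp_self]
        simp only [hp, dotProduct, Pi.star_apply]
        exact Finset.sum_congr rfl fun i _ => mul_comm _ _
      have e : ∑ c, ((x a * y c - x c * y a) * (star (x c) * star (y b))
            + (x c * y a) * star (x b * y c - x c * y b)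
            + (x a * y c - x c * y a) * star (x b * y c - x c * y b))
          = ((ns y : ℝ) : ℂ) * (x a * star (x b)) - ((ns x : ℝ) : ℂ) * (y a * star (y b)) := by
        rw [ex, ey, Finset.sum_mul, Finset.sum_mul, ← Finset.sum_sub_distrib]
        refine Finset.sum_congr rfl fun c _ => ?_
        rw [star_sub, star_mul', star_mul']
        ring
      rw [XC_mk, XC_mk, e]
      field_simp
    rw [key, norm_mul, norm_mul]
    have hs : ‖∑ c, ((x a * y c - x c * y a) * (star (x c) * star (y b))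
            + (x c * y a) * star (x b * y c - x c * y b)
            + (x a * y c - x c * y a) * star (x b * y c - x c * y b))‖ ≤ 12 * t := by
      refine (norm_sum_le _ _).trans ?_
      calc _ ≤ ∑ _c : Fin 4, 3 * t := by
            refine Finset.sum_le_sum fun c _ => ?_
            have m1 : ‖x a * y c - x c * y a‖ ≤ t := (hcon a c).le
            have m2 : ‖x b * y c - x c * y b‖ ≤ t := (hcon b c).le
            refine norm_add₃_le.trans ?_
            have n1 : ‖(x a * y c - x c * y a) * (star (x c) * star (y b))‖ ≤ t := by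
              rw [norm_mul, norm_mul, norm_star, norm_star]
              calc _ ≤ t * (1 * 1) := by
                    gcongr
                    · exact en_le nx c
                    · exact en_le ny b
                _ = t := by ring
            have n2 : ‖(x c * y a) * star (x b * y c - x c * y b)‖ ≤ t := by
              rw [norm_mul, norm_mul, norm_star]
              calc _ ≤ (1 * 1) * t := by
                    gcongr
                    · exact en_le nx c
                    · exact en_le ny a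
                _ = t := by ring
            have n3 : ‖(x a * y c - x c * y a) * star (x b * y c - x c * y b)‖ ≤ t := by
              rw [norm_mul, norm_star]
              calc _ ≤ t * t := by gcongr
                _ ≤ t * 1 := by gcongr
                _ = t := mul_one _
            linarith
        _ = 12 * t := by
            simp only [Finset.sum_const, Finset.card_univ, Fintype.card_fin, nsmul_eq_mul]
            push_cast
            ring
    calc _ ≤ 1 * 1 * (12 * t) := by gcongr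
      _ < δ := by
          have : 0 < δ := hδ
          linarith

end Vale.Agent.P092.H616.CH
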