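import Mathlib

/-! Synthesis with hermitian projections (real or complex), abstract part: a trilinear map whose middle variable can be
moved to the ends vanishes on disjointly supported ends. -/

set_option linter.unusedSectionVars false

namespace Vale.Agent.P092.H616.Cx

open scoped BigOperators
open Finset

variable {n : ℕ}
variable {Y Z : Type*} [TopologicalSpace Y] [CompactSpace Y] [T2Space Y]
variable [TopologicalSpace Z] [CompactSpace Z] [T2Space Z]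
variable {V : Type*} [NormedAddCommGroup V] [NormedSpace ℂ V]

/-- the coordinate functions of a continuous family of complex matrices -/
noncomputable def cx (X : C(Y, Matrix (Fin n) (Fin n) ℂ)) (i j : Fin n) : C(Y, ℂ) :=
  ⟨fun y => X y i j, X.continuous.matrix_elem i j⟩

@[simp] theorem cx_apply (X : C(Y, Matrix (Fin n) (Fin n) ℂ)) (i j : Fin n) (y : Y) :
    cx X i j y = X y i j := rfl

theorem tsupport_mul_sub (a u : C(Y, ℂ)) : tsupport (⇑(a * u)) ⊆ tsupport (⇑a) := by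
  rw [ContinuousMap.coe_mul]
  exact tsupport_mul_subset_left

/-- one step of the contraction on a pair of cells -/
theorem cell_step (U : C(Y, Matrix (Fin n) (Fin n) ℂ)) (c : ℝ) (hc : 0 < c)
    (G : C(Y, ℂ) →ₗ[ℂ] C(Y, ℂ) →ₗ[ℂ] V)
    (S S' : Set Y) (A A' : Matrix (Fin n) (Fin n) ℂ) (ε θ : ℝ) (hε : 0 ≤ ε) (hε1 : ε ≤ 1)
    (hS : ∀ y ∈ S, ∀ i j, ‖U y i j - A i j‖ ≤ ε) (hS' : ∀ y ∈ S', ∀ i j, ‖U y i j - A' i j‖ ≤ ε)
    (hA : ∀ i j, ‖A i j‖ ≤ 1) (hA' : ∀ i j, ‖A' i j‖ ≤ 1)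
    (hθ : ‖∑ j, ∑ k, A j k * A' k j‖ + (n * n : ℝ) * (3 * ε) ≤ θ * c)
    (hG : ∀ a a' : C(Y, ℂ), tsupport (⇑a) ⊆ S → tsupport (⇑a') ⊆ S' →
      (c : ℂ) • G a a' = ∑ j, ∑ k, G (a * cx U j k) (a' * cx U k j))
    (t : ℝ) (ht : 0 ≤ t)
    (hb : ∀ a a' : C(Y, ℂ), tsupport (⇑a) ⊆ S → tsupport (⇑a') ⊆ S' →
      ‖G a a'‖ ≤ t * ‖a‖ * ‖a'‖) (a a' : C(Y, ℂ)) (ha : tsupport (⇑a) ⊆ S)
    (ha' : tsupport (⇑a') ⊆ S') : ‖G a a'‖ ≤ θ * t * ‖a‖ * ‖a'‖ := by
  classical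
  -- the remainder functions
  set r : Fin n → Fin n → C(Y, ℂ) := fun j k => a * cx U j k - A j k • a with hr
  set r' : Fin n → Fin n → C(Y, ℂ) := fun j k => a' * cx U j k - A' j k • a' with hr'
  have supp_r : ∀ j k, tsupport (⇑(r j k)) ⊆ S := by
    intro j k
    have : r j k = a * (cx U j k - A j k • (1 : C(Y, ℂ))) := by
      rw [hr]; simp only [mul_sub, mul_smul_comm, mul_one]
    rw [this]
    exact (tsupport_mul_sub _ _).trans ha
  have supp_r' : ∀ j k, tsupport (⇑(r' j k)) ⊆ S' := by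
    intro j k
    have : r' j k = a' * (cx U j k - A' j k • (1 : C(Y, ℂ))) := by
      rw [hr']; simp only [mul_sub, mul_smul_comm, mul_one]
    rw [this]
    exact (tsupport_mul_sub _ _).trans ha'
  have norm_r : ∀ j k, ‖r j k‖ ≤ ε * ‖a‖ := by
    intro j k
    rw [ContinuousMap.norm_le _ (by positivity)]
    intro y
    by_cases hy : a y = 0
    · simp [hr, hy]; positivity
    · have hyS : y ∈ S := ha (subset_tsupport _ hy)
      have : r j k y = a y * (U y j k - A j k) := by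
        simp [hr]; ring
      rw [this, norm_mul, mul_comm]
      exact mul_le_mul (hS y hyS j k) (a.norm_coe_le_norm y) (norm_nonneg _) hε
  have norm_r' : ∀ j k, ‖r' j k‖ ≤ ε * ‖a'‖ := by
    intro j k
    rw [ContinuousMap.norm_le _ (by positivity)]
    intro y
    by_cases hy : a' y = 0
    · simp [hr', hy]; positivity
    · have hyS : y ∈ S' := ha' (subset_tsupport _ hy)
      have : r' j k y = a' y * (U y j k - A' j k) := by
        simp [hr']; ring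
      rw [this, norm_mul, mul_comm]
      exact mul_le_mul (hS' y hyS j k) (a'.norm_coe_le_norm y) (norm_nonneg _) hε
  have hsplit : ∀ j k, G (a * cx U j k) (a' * cx U k j)
      = (A j k * A' k j) • G a a' + (A j k • G a (r' k j)
        + A' k j • G (r j k) a' + G (r j k) (r' k j)) := by
    intro j k
    have h1 : a * cx U j k = A j k • a + r j k := (add_sub_cancel _ _).symm
    have h2 : a' * cx U k j = A' k j • a' + r' k j := (add_sub_cancel _ _).symm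
    rw [h1, h2]
    simp only [map_add, map_smul, LinearMap.add_apply, LinearMap.smul_apply]
    module
  have hrest : ∀ j k, ‖A j k • G a (r' k j)
        + A' k j • G (r j k) a' + G (r j k) (r' k j)‖ ≤ 3 * ε * (t * ‖a‖ * ‖a'‖) := by
    intro j k
    have e1 : ‖A j k • G a (r' k j)‖ ≤ ε * (t * ‖a‖ * ‖a'‖) := by
      rw [norm_smul]
      calc ‖A j k‖ * ‖G a (r' k j)‖ ≤ 1 * (t * ‖a‖ * (ε * ‖a'‖)) := by
            refine mul_le_mul (hA j k) ((hb a _ ha (supp_r' k j)).trans ?_) (norm_nonneg _) zero_le_one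
            exact mul_le_mul_of_nonneg_left (norm_r' k j) (by positivity)
        _ = ε * (t * ‖a‖ * ‖a'‖) := by ring
    have e2 : ‖A' k j • G (r j k) a'‖ ≤ ε * (t * ‖a‖ * ‖a'‖) := by
      rw [norm_smul]
      calc ‖A' k j‖ * ‖G (r j k) a'‖ ≤ 1 * (t * (ε * ‖a‖) * ‖a'‖) := by
            refine mul_le_mul (hA' k j) ((hb _ a' (supp_r j k) ha').trans ?_) (norm_nonneg _)
              zero_le_one
            exact mul_le_mul_of_nonneg_right
              (mul_le_mul_of_nonneg_left (norm_r j k) ht) (norm_nonneg _)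
        _ = ε * (t * ‖a‖ * ‖a'‖) := by ring
    have e3 : ‖G (r j k) (r' k j)‖ ≤ ε * (t * ‖a‖ * ‖a'‖) := by
      calc ‖G (r j k) (r' k j)‖ ≤ t * ‖r j k‖ * ‖r' k j‖ := hb _ _ (supp_r j k) (supp_r' k j)
        _ ≤ t * (ε * ‖a‖) * (ε * ‖a'‖) := by
            refine mul_le_mul (mul_le_mul_of_nonneg_left (norm_r j k) ht) (norm_r' k j)
              (norm_nonneg _) (by positivity)
        _ = ε * (ε * (t * ‖a‖ * ‖a'‖)) := by ring
        _ ≤ 1 * (ε * (t * ‖a‖ * ‖a'‖)) := mul_le_mul_of_nonneg_right hε1 (by positivity)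
        _ = ε * (t * ‖a‖ * ‖a'‖) := one_mul _
    calc _ ≤ ‖A j k • G a (r' k j)‖ + ‖A' k j • G (r j k) a'‖ + ‖G (r j k) (r' k j)‖ :=
          norm_add₃_le
      _ ≤ 3 * ε * (t * ‖a‖ * ‖a'‖) := by linarith
  have hmain : c * ‖G a a'‖ ≤ (θ * c) * (t * ‖a‖ * ‖a'‖) := by
    calc c * ‖G a a'‖ = ‖(c : ℂ) • G a a'‖ := by
          rw [norm_smul, Complex.norm_real, Real.norm_eq_abs, abs_of_pos hc]
      _ = ‖∑ j, ∑ k, G (a * cx U j k) (a' * cx U k j)‖ := by rw [hG a a' ha ha']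
      _ = ‖(∑ j, ∑ k, A j k * A' k j) • G a a' + ∑ j, ∑ k, (A j k • G a (r' k j)
        + A' k j • G (r j k) a' + G (r j k) (r' k j))‖ := by
          congr 1
          simp only [hsplit, sum_add_distrib, ← sum_smul]
      _ ≤ ‖(∑ j, ∑ k, A j k * A' k j) • G a a'‖ + ‖∑ j, ∑ k, (A j k • G a (r' k j)
        + A' k j • G (r j k) a' + G (r j k) (r' k j))‖ := norm_add_le _ _
      _ ≤ ‖∑ j, ∑ k, A j k * A' k j‖ * (t * ‖a‖ * ‖a'‖)
          + ∑ _j : Fin n, ∑ _k : Fin n, 3 * ε * (t * ‖a‖ * ‖a'‖) := by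
          refine add_le_add ?_ ((norm_sum_le _ _).trans (sum_le_sum fun j _ =>
            (norm_sum_le _ _).trans (sum_le_sum fun k _ => hrest j k)))
          rw [norm_smul]
          exact mul_le_mul_of_nonneg_left (hb a a' ha ha') (norm_nonneg _)
      _ = (‖∑ j, ∑ k, A j k * A' k j‖ + (n * n : ℝ) * (3 * ε)) * (t * ‖a‖ * ‖a'‖) := by
          simp only [sum_const, card_univ, Fintype.card_fin, nsmul_eq_mul]
          ring
      _ ≤ (θ * c) * (t * ‖a‖ * ‖a'‖) := mul_le_mul_of_nonneg_right hθ (by positivity)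
  have : c * ‖G a a'‖ ≤ c * (θ * t * ‖a‖ * ‖a'‖) := by
    calc _ ≤ _ := hmain
      _ = _ := by ring
  exact le_of_mul_le_mul_left this hc

/-- vanishing on a pair of cells -/
theorem cell_zero (U : C(Y, Matrix (Fin n) (Fin n) ℂ)) (c : ℝ) (hc : 0 < c)
    (G : C(Y, ℂ) →ₗ[ℂ] C(Y, ℂ) →ₗ[ℂ] V) (M : ℝ) (hM : 0 ≤ M)
    (hbd : ∀ a a' : C(Y, ℂ), ‖G a a'‖ ≤ M * ‖a‖ * ‖a'‖)
    (S S' : Set Y) (A A' : Matrix (Fin n) (Fin n) ℂ) (ε θ : ℝ) (hε : 0 ≤ ε) (hε1 : ε ≤ 1)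
    (hS : ∀ y ∈ S, ∀ i j, ‖U y i j - A i j‖ ≤ ε) (hS' : ∀ y ∈ S', ∀ i j, ‖U y i j - A' i j‖ ≤ ε)
    (hA : ∀ i j, ‖A i j‖ ≤ 1) (hA' : ∀ i j, ‖A' i j‖ ≤ 1)
    (hθ : ‖∑ j, ∑ k, A j k * A' k j‖ + (n * n : ℝ) * (3 * ε) ≤ θ * c)
    (hθ0 : 0 ≤ θ) (hθ1 : θ < 1)
    (hG : ∀ a a' : C(Y, ℂ), tsupport (⇑a) ⊆ S → tsupport (⇑a') ⊆ S' →
      (c : ℂ) • G a a' = ∑ j, ∑ k, G (a * cx U j k) (a' * cx U k j))
    (a a' : C(Y, ℂ)) (ha : tsupport (⇑a) ⊆ S) (ha' : tsupport (⇑a') ⊆ S') : G a a' = 0 := by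
  have key : ∀ m : ℕ, ∀ a a' : C(Y, ℂ), tsupport (⇑a) ⊆ S → tsupport (⇑a') ⊆ S' →
      ‖G a a'‖ ≤ (θ ^ m * M) * ‖a‖ * ‖a'‖ := by
    intro m
    induction m with
    | zero => intro a a' _ _; simpa using hbd a a'
    | succ m ih =>
      intro a a' ha ha'
      have := cell_step U c hc G S S' A A' ε θ hε hε1 hS hS' hA hA' hθ hG (θ ^ m * M)
        (by positivity) ih a a' ha ha'
      calc _ ≤ _ := this
        _ = _ := by ring
  have lim : Filter.Tendsto (fun m : ℕ => (θ ^ m * M) * ‖a‖ * ‖a'‖) Filter.atTop (nhds 0) := by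
    have h0 := tendsto_pow_atTop_nhds_zero_of_lt_one hθ0 hθ1
    simpa using ((h0.mul_const M).mul_const ‖a‖).mul_const ‖a'‖
  have : ‖G a a'‖ ≤ 0 := ge_of_tendsto' lim fun m => key m a a' ha ha'
  exact norm_le_zero_iff.1 this

end Vale.Agent.P092.H616.Cx
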