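import Vale.Agent.P092.H616.SynC

/-! Synthesis with hermitian projections: the matrix algebra modulo the incidence ideal, with the
four incidence relations (`X P = X`, `P X = X`, both orders of the letters). -/

namespace Vale.Agent.P092.H616.Cx

open scoped BigOperators TensorProduct
open Finset
open Vale.Agent.P092.H616.Syn (Minor point_id line_id Tri lin idl mem_idl li mi ri qL qM qR
  qL_apply qM_apply qR_apply q_eq_zero)

variable {n : ℕ} {A A' V : Type*} [CommRing A] [Algebra ℂ A] [CommRing A'] [Algebra ℂ A']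
  [AddCommGroup V] [Module ℂ V]

theorem p1 (T : A →ₗ[ℂ] A' →ₗ[ℂ] A →ₗ[ℂ] V) (X : Matrix (Fin n) (Fin n) A)
    (P : Matrix (Fin n) (Fin n) A')
    (h : ∀ a b a' i j, ∑ k, T (a * X i k) (P k j * b) a' = T (a * X i j) b a') :
    X.map (qL T) * P.map (qM T) = X.map (qL T) := by
  ext i j
  rw [Matrix.mul_apply, ← sub_eq_zero]
  simp only [Matrix.map_apply, qL_apply, qM_apply, ← map_mul, ← map_sum, ← map_sub]
  rw [Ideal.Quotient.eq_zero_iff_mem]
  refine mem_idl T _ fun a b a' => ?_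
  rw [mul_sub, map_sub, Finset.mul_sum, map_sum, sub_eq_zero]
  have := h a b a' i j
  simpa [li, mi, Algebra.TensorProduct.tmul_mul_tmul, mul_comm b] using this

theorem p2 (T : A →ₗ[ℂ] A' →ₗ[ℂ] A →ₗ[ℂ] V) (X : Matrix (Fin n) (Fin n) A)
    (P : Matrix (Fin n) (Fin n) A')
    (h : ∀ a b a' i j, ∑ k, T (a * X k j) (P i k * b) a' = T (a * X i j) b a') :
    P.map (qM T) * X.map (qL T) = X.map (qL T) := by
  ext i j
  rw [Matrix.mul_apply, ← sub_eq_zero]
  simp only [Matrix.map_apply, qL_apply, qM_apply, ← map_mul, ← map_sum, ← map_sub]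
  rw [Ideal.Quotient.eq_zero_iff_mem]
  refine mem_idl T _ fun a b a' => ?_
  rw [mul_sub, map_sub, Finset.mul_sum, map_sum, sub_eq_zero]
  have := h a b a' i j
  simpa [li, mi, Algebra.TensorProduct.tmul_mul_tmul, mul_comm b] using this

theorem p3 (T : A →ₗ[ℂ] A' →ₗ[ℂ] A →ₗ[ℂ] V) (X : Matrix (Fin n) (Fin n) A)
    (P : Matrix (Fin n) (Fin n) A')
    (h : ∀ a b a' i j, ∑ k, T a (b * P i k) (X k j * a') = T a b (X i j * a')) :
    P.map (qM T) * X.map (qR T) = X.map (qR T) := by
  ext i j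
  rw [Matrix.mul_apply, ← sub_eq_zero]
  simp only [Matrix.map_apply, qR_apply, qM_apply, ← map_mul, ← map_sum, ← map_sub]
  rw [Ideal.Quotient.eq_zero_iff_mem]
  refine mem_idl T _ fun a b a' => ?_
  rw [mul_sub, map_sub, Finset.mul_sum, map_sum, sub_eq_zero]
  have := h a b a' i j
  simpa [ri, mi, Algebra.TensorProduct.tmul_mul_tmul, mul_comm a'] using this

theorem p4 (T : A →ₗ[ℂ] A' →ₗ[ℂ] A →ₗ[ℂ] V) (X : Matrix (Fin n) (Fin n) A)
    (P : Matrix (Fin n) (Fin n) A')
    (h : ∀ a b a' i j, ∑ k, T a (b * P k j) (X i k * a') = T a b (X i j * a')) :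
    X.map (qR T) * P.map (qM T) = X.map (qR T) := by
  ext i j
  rw [Matrix.mul_apply, ← sub_eq_zero]
  simp only [Matrix.map_apply, qR_apply, qM_apply, ← map_mul, ← map_sum, ← map_sub]
  rw [Ideal.Quotient.eq_zero_iff_mem]
  refine mem_idl T _ fun a b a' => ?_
  rw [mul_sub, map_sub, Finset.mul_sum, map_sum, sub_eq_zero]
  have := h a b a' i j
  simpa [ri, mi, Algebra.TensorProduct.tmul_mul_tmul, mul_comm a'] using this

theorem l1 (T : A →ₗ[ℂ] A' →ₗ[ℂ] A →ₗ[ℂ] V) (X : Matrix (Fin n) (Fin n) A')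
    (P : Matrix (Fin n) (Fin n) A)
    (h : ∀ a b a' i j, ∑ k, T (a * P i k) (X k j * b) a' = T a (X i j * b) a') :
    P.map (qL T) * X.map (qM T) = X.map (qM T) := by
  ext i j
  rw [Matrix.mul_apply, ← sub_eq_zero]
  simp only [Matrix.map_apply, qL_apply, qM_apply, ← map_mul, ← map_sum, ← map_sub]
  rw [Ideal.Quotient.eq_zero_iff_mem]
  refine mem_idl T _ fun a b a' => ?_
  rw [mul_sub, map_sub, Finset.mul_sum, map_sum, sub_eq_zero]
  have := h a b a' i j
  simpa [li, mi, Algebra.TensorProduct.tmul_mul_tmul, mul_comm b] using this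

theorem l2 (T : A →ₗ[ℂ] A' →ₗ[ℂ] A →ₗ[ℂ] V) (X : Matrix (Fin n) (Fin n) A')
    (P : Matrix (Fin n) (Fin n) A)
    (h : ∀ a b a' i j, ∑ k, T (a * P k j) (X i k * b) a' = T a (X i j * b) a') :
    X.map (qM T) * P.map (qL T) = X.map (qM T) := by
  ext i j
  rw [Matrix.mul_apply, ← sub_eq_zero]
  simp only [Matrix.map_apply, qL_apply, qM_apply, ← map_mul, ← map_sum, ← map_sub]
  rw [Ideal.Quotient.eq_zero_iff_mem]
  refine mem_idl T _ fun a b a' => ?_
  rw [mul_sub, map_sub, Finset.mul_sum, map_sum, sub_eq_zero]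
  have := h a b a' i j
  simpa [li, mi, Algebra.TensorProduct.tmul_mul_tmul, mul_comm b] using this

theorem l3 (T : A →ₗ[ℂ] A' →ₗ[ℂ] A →ₗ[ℂ] V) (X : Matrix (Fin n) (Fin n) A')
    (P : Matrix (Fin n) (Fin n) A)
    (h : ∀ a b a' i j, ∑ k, T a (b * X i k) (P k j * a') = T a (b * X i j) a') :
    X.map (qM T) * P.map (qR T) = X.map (qM T) := by
  ext i j
  rw [Matrix.mul_apply, ← sub_eq_zero]
  simp only [Matrix.map_apply, qR_apply, qM_apply, ← map_mul, ← map_sum, ← map_sub]
  rw [Ideal.Quotient.eq_zero_iff_mem]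
  refine mem_idl T _ fun a b a' => ?_
  rw [mul_sub, map_sub, Finset.mul_sum, map_sum, sub_eq_zero]
  have := h a b a' i j
  simpa [ri, mi, Algebra.TensorProduct.tmul_mul_tmul, mul_comm a'] using this

theorem l4 (T : A →ₗ[ℂ] A' →ₗ[ℂ] A →ₗ[ℂ] V) (X : Matrix (Fin n) (Fin n) A')
    (P : Matrix (Fin n) (Fin n) A)
    (h : ∀ a b a' i j, ∑ k, T a (b * X k j) (P i k * a') = T a (b * X i j) a') :
    P.map (qR T) * X.map (qM T) = X.map (qM T) := by
  ext i j
  rw [Matrix.mul_apply, ← sub_eq_zero]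
  simp only [Matrix.map_apply, qR_apply, qM_apply, ← map_mul, ← map_sum, ← map_sub]
  rw [Ideal.Quotient.eq_zero_iff_mem]
  refine mem_idl T _ fun a b a' => ?_
  rw [mul_sub, map_sub, Finset.mul_sum, map_sum, sub_eq_zero]
  have := h a b a' i j
  simpa [ri, mi, Algebra.TensorProduct.tmul_mul_tmul, mul_comm a'] using this

theorem point_rel (T : A →ₗ[ℂ] A' →ₗ[ℂ] A →ₗ[ℂ] V) (X : Matrix (Fin n) (Fin n) A)
    (P : Matrix (Fin n) (Fin n) A')
    (hX : Matrix.trace X = 1) (hP : Minor P)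
    (hL1 : ∀ a b a' i j, ∑ k, T (a * X i k) (P k j * b) a' = T (a * X i j) b a')
    (hL2 : ∀ a b a' i j, ∑ k, T (a * X k j) (P i k * b) a' = T (a * X i j) b a')
    (hR1 : ∀ a b a' i j, ∑ k, T a (b * P i k) (X k j * a') = T a b (X i j * a'))
    (hR2 : ∀ a b a' i j, ∑ k, T a (b * P k j) (X i k * a') = T a b (X i j * a'))
    (a : A) (b : A') (a' : A) (i l : Fin n) :
    T a (P i l * b) a' + ∑ k, T (a * X i k) b (X k l * a') + ∑ k, T (a * X k l) b (X i k * a')
      = T (a * X i l) b a' + T a b (X i l * a')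
        + ∑ j, ∑ k, T (a * X j k) (P i l * b) (X k j * a') := by
  have h1 := p1 T X P hL1
  have h2 := p2 T X P hL2
  have h4 := p3 T X P hR1
  have h3 := p4 T X P hR2
  set x := X.map (qL T) with hx
  set p := P.map (qM T) with hp
  set x' := X.map (qR T) with hx'
  have tx : Matrix.trace x = 1 := by
    have := congrArg (qL T) hX
    simpa [hx, Matrix.trace, map_sum] using this
  have tx' : Matrix.trace x' = 1 := by
    have := congrArg (qR T) hX
    simpa [hx', Matrix.trace, map_sum] using this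
  have pm : Minor p := by
    intro i k s j r l
    have := congrArg (qM T) (hP i k s j r l)
    simpa [hp, map_add, map_mul] using this
  have key := congrFun (congrFun (point_id p x x' pm h1 h2 h3 h4 tx tx') i) l
  rw [← sub_eq_zero] at key
  simp only [Matrix.add_apply, Matrix.smul_apply, smul_eq_mul, Matrix.mul_apply, Matrix.trace,
    Matrix.diag_apply, hx, hp, hx', Matrix.map_apply, qL_apply, qM_apply, qR_apply, ← map_mul,
    ← map_sum, ← map_add, ← map_sub] at key
  have fin := q_eq_zero T key a b a'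
  rw [mul_sub, map_sub, sub_eq_zero] at fin
  simpa [mul_add, Finset.mul_sum, Finset.sum_mul, map_sum, li, mi, ri,
    Algebra.TensorProduct.tmul_mul_tmul, mul_comm b, mul_comm a'] using fin

theorem line_rel (T : A →ₗ[ℂ] A' →ₗ[ℂ] A →ₗ[ℂ] V) (P : Matrix (Fin n) (Fin n) A)
    (X : Matrix (Fin n) (Fin n) A')
    (hX : Matrix.trace X = 1) (hP : Minor P)
    (hL1 : ∀ a b a' i j, ∑ k, T (a * P i k) (X k j * b) a' = T a (X i j * b) a')
    (hL2 : ∀ a b a' i j, ∑ k, T (a * P k j) (X i k * b) a' = T a (X i j * b) a')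
    (hR1 : ∀ a b a' i j, ∑ k, T a (b * X i k) (P k j * a') = T a (b * X i j) a')
    (hR2 : ∀ a b a' i j, ∑ k, T a (b * X k j) (P i k * a') = T a (b * X i j) a')
    (a : A) (b : A') (a' : A) (i l : Fin n) :
    T a (X i l * b) a' + T a (X i l * b) a'
        + ∑ j, ∑ k, T (a * (P j k * P i l)) b (P k j * a')
      = ∑ j, ∑ k, T (a * P j k) (X i l * b) (P k j * a')
        + ∑ j, ∑ k, T (a * (P i k * P j l)) b (P k j * a') + T (a * P i l) b a' := by
  have h2 := l1 T X P hL1
  have h1 := l2 T X P hL2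
  have h4 := l3 T X P hR1
  have h3 := l4 T X P hR2
  set x := X.map (qM T) with hx
  set p := P.map (qL T) with hp
  set p' := P.map (qR T) with hp'
  have tx : Matrix.trace x = 1 := by
    have := congrArg (qM T) hX
    simpa [hx, Matrix.trace, map_sum] using this
  have pm : Minor p := by
    intro i k s j r l
    have := congrArg (qL T) (hP i k s j r l)
    simpa [hp, map_add, map_mul] using this
  have key := congrFun (congrFun (line_id p p' x pm h1 h2 h4 h3 tx) i) l
  rw [← sub_eq_zero] at key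
  simp only [Matrix.add_apply, Matrix.smul_apply, smul_eq_mul, Matrix.mul_apply, Matrix.trace,
    Matrix.diag_apply, hx, hp, hp', Matrix.map_apply, qL_apply, qM_apply, qR_apply, ← map_mul,
    ← map_sum, ← map_add, ← map_sub] at key
  have fin := q_eq_zero T key a b a'
  rw [mul_sub, map_sub, sub_eq_zero] at fin
  simpa [mul_add, Finset.mul_sum, Finset.sum_mul, map_sum, li, mi, ri,
    Algebra.TensorProduct.tmul_mul_tmul, mul_comm b, mul_comm a'] using fin

end Vale.Agent.P092.H616.Cx
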