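import Vale.Agent.P092.H616.CB
import Vale.Agent.P092.H616.CC

/-! Synthesis with hermitian projections: locality of the middle letter, both directions. -/

set_option linter.unusedSectionVars false

namespace Vale.Agent.P092.H616.Cx

open scoped BigOperators
open Finset
open Vale.Agent.P092.H616.Syn (Minor)

variable {n : ℕ}

section mats

open Matrix

/-- a hermitian projection of trace `c` -/
structure HP (c : ℝ) (A : Matrix (Fin n) (Fin n) ℂ) : Prop where
  herm : ∀ i j, star (A i j) = A j i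
  idem : A * A = A
  tr : ∑ j, A j j = (c : ℂ)

variable {A B : Matrix (Fin n) (Fin n) ℂ} {c : ℝ}

/-- the square of the Hilbert-Schmidt norm -/
noncomputable def nsq (M : Matrix (Fin n) (Fin n) ℂ) : ℝ := ∑ j, ∑ k, ‖M j k‖ ^ 2

theorem nsq_nonneg (M : Matrix (Fin n) (Fin n) ℂ) : 0 ≤ nsq M :=
  sum_nonneg fun _ _ => sum_nonneg fun _ _ => sq_nonneg _

theorem entry_le (M : Matrix (Fin n) (Fin n) ℂ) (i j : Fin n) : ‖M i j‖ ^ 2 ≤ nsq M :=
  calc ‖M i j‖ ^ 2 ≤ ∑ k, ‖M i k‖ ^ 2 :=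
        single_le_sum (f := fun k => ‖M i k‖ ^ 2) (fun _ _ => sq_nonneg _) (mem_univ j)
    _ ≤ _ := single_le_sum (f := fun j => ∑ k, ‖M j k‖ ^ 2)
        (fun _ _ => sum_nonneg fun _ _ => sq_nonneg _) (mem_univ i)

theorem nsq_pos {M : Matrix (Fin n) (Fin n) ℂ} (h : M ≠ 0) : 0 < nsq M := by
  obtain ⟨j, k, hjk⟩ : ∃ j k, M j k ≠ 0 := by
    by_contra hcon
    push Not at hcon
    exact h (by ext j k; simpa using hcon j k)
  exact lt_of_lt_of_le (by positivity) (entry_le M j k)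

theorem trace_star_mul (M : Matrix (Fin n) (Fin n) ℂ) :
    Matrix.trace (Mᴴ * M) = (nsq M : ℂ) := by
  rw [Matrix.trace, nsq]
  simp only [Matrix.diag_apply, Matrix.mul_apply, Matrix.conjTranspose_apply]
  rw [sum_comm]
  push_cast
  refine sum_congr rfl fun j _ => sum_congr rfl fun k _ => ?_
  rw [← Complex.conj_mul']
  rfl

theorem HP.conj (h : HP c A) : Aᴴ = A := by
  ext i j
  rw [Matrix.conjTranspose_apply, h.herm]

theorem HP.trace (h : HP c A) : Matrix.trace A = (c : ℂ) := h.tr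

theorem tr_eq (A B : Matrix (Fin n) (Fin n) ℂ) :
    ∑ j, ∑ k, A j k * B k j = Matrix.trace (A * B) := by
  simp only [Matrix.trace, Matrix.diag_apply, Matrix.mul_apply]

theorem HP.nsq_eq (h : HP c A) : nsq A = c := by
  have := trace_star_mul A
  rw [h.conj, h.idem, h.trace] at this
  exact_mod_cast this.symm

theorem HP.row (h : HP c A) (j : Fin n) : ((∑ k, ‖A j k‖ ^ 2 : ℝ) : ℂ) = A j j := by
  have h0 := congrFun (congrFun h.idem j) j
  rw [Matrix.mul_apply] at h0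
  rw [← h0]
  push_cast
  refine sum_congr rfl fun k _ => ?_
  rw [← h.herm j k, ← Complex.mul_conj']
  rfl

theorem HP.le (h : HP c A) (i j : Fin n) : ‖A i j‖ ≤ 1 := by
  have h1 : (∑ k, ‖A i k‖ ^ 2 : ℝ) = ‖A i i‖ := by
    have h0 := congrArg norm (h.row i)
    rw [Complex.norm_real, Real.norm_eq_abs,
      abs_of_nonneg (sum_nonneg fun _ _ => sq_nonneg _)] at h0
    exact h0
  have h2 : ‖A i j‖ ^ 2 ≤ ‖A i i‖ := by
    rw [← h1]
    exact single_le_sum (f := fun k => ‖A i k‖ ^ 2) (fun k _ => sq_nonneg _) (mem_univ j)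
  have h3 : ‖A i i‖ ^ 2 ≤ ‖A i i‖ :=
    (single_le_sum (f := fun k => ‖A i k‖ ^ 2) (fun k _ => sq_nonneg _) (mem_univ i)).trans h1.le
  have h4 : ‖A i i‖ ≤ 1 := by
    by_contra hcon
    push Not at hcon
    nlinarith [norm_nonneg (A i i)]
  have h5 : ‖A i j‖ ^ 2 ≤ 1 := h2.trans h4
  nlinarith [norm_nonneg (A i j)]

theorem tr_lt (hA : HP c A) (hB : HP c B) (h : A ≠ B) :
    ‖∑ j, ∑ k, A j k * B k j‖ < c := by
  have e1 : Matrix.trace (A * B) = (nsq (B * A) : ℂ) := by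
    have e0 : A * B * (B * A) = A * B * A := by
      rw [Matrix.mul_assoc, ← Matrix.mul_assoc B B A, hB.idem, ← Matrix.mul_assoc]
    rw [← trace_star_mul, Matrix.conjTranspose_mul, hA.conj, hB.conj, e0,
      Matrix.trace_mul_comm (A * B) A, ← Matrix.mul_assoc, hA.idem]
  have e2 : (nsq (A - B) : ℂ) = 2 * (c : ℂ) - 2 * Matrix.trace (A * B) := by
    rw [← trace_star_mul, Matrix.conjTranspose_sub, hA.conj, hB.conj, Matrix.sub_mul,
      Matrix.mul_sub, Matrix.mul_sub, hA.idem, hB.idem, Matrix.trace_sub, Matrix.trace_sub,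
      Matrix.trace_sub, hA.trace, hB.trace, Matrix.trace_mul_comm B A]
    ring
  rw [e1] at e2
  have e3 : nsq (A - B) = 2 * c - 2 * nsq (B * A) := by exact_mod_cast e2
  have e4 : 0 < nsq (A - B) := nsq_pos (sub_ne_zero.2 h)
  rw [tr_eq, e1, Complex.norm_real, Real.norm_eq_abs, abs_of_nonneg (nsq_nonneg _)]
  linarith

end mats

variable {Y Z : Type*} [TopologicalSpace Y] [CompactSpace Y] [T2Space Y]
variable [TopologicalSpace Z] [CompactSpace Z] [T2Space Z]
variable {V : Type*} [NormedAddCommGroup V] [NormedSpace ℂ V]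

/-- points and lines as hermitian projections -/
structure Geo (X : C(Y, Matrix (Fin n) (Fin n) ℂ)) (P : C(Z, Matrix (Fin n) (Fin n) ℂ)) :
    Prop where
  injX : Function.Injective X
  injP : Function.Injective P
  pt : ∀ y, HP 1 (X y)
  ln : ∀ z, HP 2 (P z)
  minor : ∀ z, Minor (P z)

variable {X : C(Y, Matrix (Fin n) (Fin n) ℂ)} {P : C(Z, Matrix (Fin n) (Fin n) ℂ)}

/-- the matrix of coordinate functions -/
noncomputable def mx (X : C(Y, Matrix (Fin n) (Fin n) ℂ)) : Matrix (Fin n) (Fin n) C(Y, ℂ) :=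
  Matrix.of fun i j => cx X i j

@[simp] theorem mx_apply (X : C(Y, Matrix (Fin n) (Fin n) ℂ)) (i j : Fin n) :
    mx X i j = cx X i j := rfl

theorem mx_trace (h : ∀ y, ∑ j, X y j j = 1) : Matrix.trace (mx X) = 1 := by
  ext y
  rw [Matrix.trace]
  simp only [Matrix.diag_apply, mx_apply, ContinuousMap.coe_sum, Finset.sum_apply,
    cx_apply, ContinuousMap.one_apply]
  exact h y

theorem mx_minor (h : ∀ y, Minor (X y)) : Minor (mx X) := by
  intro i k s j r l
  ext z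
  have := h z i k s j r l
  simpa only [mx_apply, ContinuousMap.add_apply, ContinuousMap.mul_apply, cx_apply] using this

theorem disj_zero {T : C(Y, ℂ) →ₗ[ℂ] C(Z, ℂ) →ₗ[ℂ] C(Y, ℂ) →ₗ[ℂ] V} {b : C(Z, ℂ)}
    (hb : ∀ a a' : C(Y, ℂ), Disjoint (tsupport (⇑a)) (tsupport (⇑a')) → T a b a' = 0)
    {a a' : C(Y, ℂ)} (hd : Disjoint (tsupport (⇑a)) (tsupport (⇑a'))) (u u' : C(Y, ℂ)) :
    T (a * u) b (u' * a') = 0 :=
  hb _ _ (hd.mono (tsupport_mul_sub _ _) (by rw [mul_comm]; exact tsupport_mul_sub _ _))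

/-- **points at the ends, lines in the middle** -/
theorem tri_point (hG : Geo X P) (T : C(Y, ℂ) →ₗ[ℂ] C(Z, ℂ) →ₗ[ℂ] C(Y, ℂ) →ₗ[ℂ] V)
    (M : ℝ) (hM : 0 ≤ M) (hbd : ∀ a b a', ‖T a b a'‖ ≤ M * ‖a‖ * ‖b‖ * ‖a'‖)
    (hL1 : ∀ a b a' i j, ∑ k, T (a * cx X i k) (cx P k j * b) a' = T (a * cx X i j) b a')
    (hL2 : ∀ a b a' i j, ∑ k, T (a * cx X k j) (cx P i k * b) a' = T (a * cx X i j) b a')
    (hR1 : ∀ a b a' i j, ∑ k, T a (b * cx P i k) (cx X k j * a') = T a b (cx X i j * a'))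
    (hR2 : ∀ a b a' i j, ∑ k, T a (b * cx P k j) (cx X i k * a') = T a b (cx X i j * a'))
    (h1 : ∀ a a' : C(Y, ℂ), Disjoint (tsupport (⇑a)) (tsupport (⇑a')) → T a 1 a' = 0)
    (a a' : C(Y, ℂ)) (hd : Disjoint (tsupport (⇑a)) (tsupport (⇑a'))) (b : C(Z, ℂ)) :
    T a b a' = 0 := by
  refine mid_zero X P hG.injP (fun z i j => (hG.ln z).herm i j) 1 one_pos T M hM hbd
    (fun y i j => (hG.pt y).le i j)
    (fun y y' hy => tr_lt (hG.pt y) (hG.pt y') fun h => hy (hG.injX h)) h1 ?_ a a' hd b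
  intro b hb i l a a' hd
  have key := point_rel T (mx X) (mx P)
    (mx_trace fun y => by simpa using (hG.pt y).tr)
    (mx_minor fun z => hG.minor z) hL1 hL2 hR1 hR2 a b a' i l
  simp only [mx_apply] at key
  have z1 : ∑ k, T (a * cx X i k) b (cx X k l * a') = 0 :=
    sum_eq_zero fun k _ => disj_zero hb hd _ _
  have z2 : ∑ k, T (a * cx X k l) b (cx X i k * a') = 0 :=
    sum_eq_zero fun k _ => disj_zero hb hd _ _
  have z3 : T (a * cx X i l) b a' = 0 := by
    have := disj_zero hb hd (cx X i l) 1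
    rwa [one_mul] at this
  have z4 : T a b (cx X i l * a') = 0 := by
    have := disj_zero hb hd 1 (cx X i l)
    rwa [mul_one] at this
  rw [z1, z2, z3, z4] at key
  simpa [mul_comm a'] using key

/-- **lines at the ends, points in the middle** -/
theorem tri_line (hG : Geo X P) (T : C(Z, ℂ) →ₗ[ℂ] C(Y, ℂ) →ₗ[ℂ] C(Z, ℂ) →ₗ[ℂ] V)
    (M : ℝ) (hM : 0 ≤ M) (hbd : ∀ a b a', ‖T a b a'‖ ≤ M * ‖a‖ * ‖b‖ * ‖a'‖)
    (hL1 : ∀ a b a' i j, ∑ k, T (a * cx P i k) (cx X k j * b) a' = T a (cx X i j * b) a')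
    (hL2 : ∀ a b a' i j, ∑ k, T (a * cx P k j) (cx X i k * b) a' = T a (cx X i j * b) a')
    (hR1 : ∀ a b a' i j, ∑ k, T a (b * cx X i k) (cx P k j * a') = T a (b * cx X i j) a')
    (hR2 : ∀ a b a' i j, ∑ k, T a (b * cx X k j) (cx P i k * a') = T a (b * cx X i j) a')
    (h1 : ∀ a a' : C(Z, ℂ), Disjoint (tsupport (⇑a)) (tsupport (⇑a')) → T a 1 a' = 0)
    (a a' : C(Z, ℂ)) (hd : Disjoint (tsupport (⇑a)) (tsupport (⇑a'))) (b : C(Y, ℂ)) :
    T a b a' = 0 := by
  refine mid_zero P X hG.injX (fun y i j => (hG.pt y).herm i j) 2 two_pos T M hM hbd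
    (fun z i j => (hG.ln z).le i j)
    (fun z z' hz => tr_lt (hG.ln z) (hG.ln z') fun h => hz (hG.injP h)) h1 ?_ a a' hd b
  intro b hb i l a a' hd
  have key := line_rel T (mx P) (mx X)
    (mx_trace fun y => by simpa using (hG.pt y).tr)
    (mx_minor fun z => hG.minor z) hL1 hL2 hR1 hR2 a b a' i l
  simp only [mx_apply] at key
  have z1 : ∑ j, ∑ k, T (a * (cx P j k * cx P i l)) b (cx P k j * a') = 0 :=
    sum_eq_zero fun j _ => sum_eq_zero fun k _ => disj_zero hb hd _ _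
  have z2 : ∑ j, ∑ k, T (a * (cx P i k * cx P j l)) b (cx P k j * a') = 0 :=
    sum_eq_zero fun j _ => sum_eq_zero fun k _ => disj_zero hb hd _ _
  have z3 : T (a * cx P i l) b a' = 0 := by
    have := disj_zero hb hd (cx P i l) 1
    rwa [one_mul] at this
  rw [z1, z2, z3] at key
  simp only [add_zero] at key
  rw [← two_smul ℂ] at key
  simpa [mul_comm a'] using key

end Vale.Agent.P092.H616.Cx
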