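import Vale.Agent.P092.H616.CD
import Vale.Agent.P092.H616.SynE

/-! Synthesis with hermitian projections: the operator forms `Loc`, `Loc0`, both directions, from
the incidence relations `X P = X`, `P X = X` between the letters. -/

set_option linter.unusedSectionVars false

namespace Vale.Agent.P092.H616.Cx

open scoped BigOperators
open Finset Vale.Agent.P092.H828.P
open Vale.Agent.P092.H616.Syn (Bdd bdd_of_UL tri tri_apply tri_bdd)

variable {n : ℕ}
variable {Y Z : Type*} [TopologicalSpace Y] [CompactSpace Y] [T2Space Y]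
variable [TopologicalSpace Z] [CompactSpace Z] [T2Space Z]
variable {K : Type*} [NormedAddCommGroup K] [InnerProductSpace ℂ K] [CompleteSpace K]

/-- the relations `X P = X`, `P X = X`, letters in both orders -/
structure Rel (X : C(Y, Matrix (Fin n) (Fin n) ℂ)) (P : C(Z, Matrix (Fin n) (Fin n) ℂ))
    (E : C(Y, ℂ) →ₗ[ℂ] (K →L[ℂ] K)) (F : C(Z, ℂ) →ₗ[ℂ] (K →L[ℂ] K)) : Prop where
  l1 : ∀ a b i j, ∑ k, E (a * cx X i k) * F (cx P k j * b) = E (a * cx X i j) * F b
  l2 : ∀ a b i j, ∑ k, E (a * cx X k j) * F (cx P i k * b) = E (a * cx X i j) * F b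
  r1 : ∀ a b i j, ∑ k, F (b * cx P i k) * E (cx X k j * a) = F b * E (cx X i j * a)
  r2 : ∀ a b i j, ∑ k, F (b * cx P k j) * E (cx X i k * a) = F b * E (cx X i j * a)

variable {X : C(Y, Matrix (Fin n) (Fin n) ℂ)} {P : C(Z, Matrix (Fin n) (Fin n) ℂ)}
variable {E E' E₁ E₂ : C(Y, ℂ) →ₗ[ℂ] (K →L[ℂ] K)} {F F' F₁ F₂ : C(Z, ℂ) →ₗ[ℂ] (K →L[ℂ] K)}

/-- the core statement, points at the ends -/
theorem core (hG : Geo X P) {D : C(Z, ℂ) →ₗ[ℂ] (K →L[ℂ] K)} (b₁ : Bdd E₁) (bD : Bdd D)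
    (b₂ : Bdd E₂) (h₁ : Rel X P E₁ D) (h₂ : Rel X P E₂ D)
    (h1 : ∀ f f' : C(Y, ℂ), Disjoint (tsupport f) (tsupport f') → E₁ f * D 1 * E₂ f' = 0)
    (f f' : C(Y, ℂ)) (hd : Disjoint (tsupport f) (tsupport f')) (g : C(Z, ℂ)) :
    E₁ f * D g * E₂ f' = 0 := by
  obtain ⟨M, hM, hbd⟩ := tri_bdd b₁ bD b₂
  refine tri_point hG (tri E₁ D E₂) M hM hbd ?_ ?_ ?_ ?_ h1 f f' hd g
  · intro a b a' i j
    simp only [tri_apply]
    rw [← Finset.sum_mul, h₁.l1]
  · intro a b a' i j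
    simp only [tri_apply]
    rw [← Finset.sum_mul, h₁.l2]
  · intro a b a' i j
    simp only [tri_apply, mul_assoc]
    rw [← Finset.mul_sum, h₂.r1]
  · intro a b a' i j
    simp only [tri_apply, mul_assoc]
    rw [← Finset.mul_sum, h₂.r2]

/-- the core statement, lines at the ends -/
theorem coreD (hG : Geo X P) {D : C(Y, ℂ) →ₗ[ℂ] (K →L[ℂ] K)} (b₁ : Bdd F₁) (bD : Bdd D)
    (b₂ : Bdd F₂) (h₁ : Rel X P D F₁) (h₂ : Rel X P D F₂)
    (h1 : ∀ f f' : C(Z, ℂ), Disjoint (tsupport f) (tsupport f') → F₁ f * D 1 * F₂ f' = 0)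
    (f f' : C(Z, ℂ)) (hd : Disjoint (tsupport f) (tsupport f')) (g : C(Y, ℂ)) :
    F₁ f * D g * F₂ f' = 0 := by
  obtain ⟨M, hM, hbd⟩ := tri_bdd b₁ bD b₂
  refine tri_line hG (tri F₁ D F₂) M hM hbd ?_ ?_ ?_ ?_ h1 f f' hd g
  · intro a b a' i j
    simp only [tri_apply]
    rw [← Finset.sum_mul, h₁.r1]
  · intro a b a' i j
    simp only [tri_apply]
    rw [← Finset.sum_mul, h₁.r2]
  · intro a b a' i j
    simp only [tri_apply, mul_assoc]
    rw [← Finset.mul_sum, h₂.l1]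
  · intro a b a' i j
    simp only [tri_apply, mul_assoc]
    rw [← Finset.mul_sum, h₂.l2]

theorem Rel.subF (h : Rel X P E F) (h' : Rel X P E F') : Rel X P E (F - F') := by
  constructor
  · intro a b i j
    simp only [LinearMap.sub_apply, mul_sub, Finset.sum_sub_distrib]
    rw [h.l1, h'.l1]
  · intro a b i j
    simp only [LinearMap.sub_apply, mul_sub, Finset.sum_sub_distrib]
    rw [h.l2, h'.l2]
  · intro a b i j
    simp only [LinearMap.sub_apply, sub_mul, Finset.sum_sub_distrib]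
    rw [h.r1, h'.r1]
  · intro a b i j
    simp only [LinearMap.sub_apply, sub_mul, Finset.sum_sub_distrib]
    rw [h.r2, h'.r2]

theorem Rel.subE (h : Rel X P E F) (h' : Rel X P E' F) : Rel X P (E - E') F := by
  constructor
  · intro a b i j
    simp only [LinearMap.sub_apply, sub_mul, Finset.sum_sub_distrib]
    rw [h.l1, h'.l1]
  · intro a b i j
    simp only [LinearMap.sub_apply, sub_mul, Finset.sum_sub_distrib]
    rw [h.l2, h'.l2]
  · intro a b i j
    simp only [LinearMap.sub_apply, mul_sub, Finset.sum_sub_distrib]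
    rw [h.r1, h'.r1]
  · intro a b i j
    simp only [LinearMap.sub_apply, mul_sub, Finset.sum_sub_distrib]
    rw [h.r2, h'.r2]

/-- **(1) of [0], points at the ends** -/
theorem loc (hG : Geo X P) (b₁ : Bdd E₁) (b₂ : Bdd E₂) (bF : Bdd F) (bF' : Bdd F')
    (h₁ : Rel X P E₁ F) (h₁' : Rel X P E₁ F') (h₂ : Rel X P E₂ F) (h₂' : Rel X P E₂ F')
    (h1 : F 1 = F' 1) : Loc E₁ E₂ F F' := by
  intro f f' hd g
  exact core hG b₁ (bF.sub bF') b₂ (h₁.subF h₁') (h₂.subF h₂')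
    (fun f f' _ => by simp [h1]) f f' hd g

/-- **(5) of [0], points at the ends** -/
theorem loc0 (hG : Geo X P) (b₁ : Bdd E₁) (b₂ : Bdd E₂) (bF : Bdd F)
    (h₁ : Rel X P E₁ F) (h₂ : Rel X P E₂ F) (hdis : Dis E₁ E₂) {q : ℂ}
    (h1 : F 1 = q • (1 : K →L[ℂ] K)) : Loc0 E₁ E₂ F := by
  intro f f' hd g
  exact core hG b₁ bF b₂ h₁ h₂ (fun f f' hd => by
    rw [h1, mul_smul_comm, mul_one, smul_mul_assoc, hdis f f' hd, smul_zero]) f f' hd g

/-- **(1) of [0], lines at the ends** -/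
theorem locD (hG : Geo X P) (b₁ : Bdd F₁) (b₂ : Bdd F₂) (bE : Bdd E) (bE' : Bdd E')
    (h₁ : Rel X P E F₁) (h₁' : Rel X P E' F₁) (h₂ : Rel X P E F₂) (h₂' : Rel X P E' F₂)
    (h1 : E 1 = E' 1) : Loc F₁ F₂ E E' := by
  intro f f' hd g
  exact coreD hG b₁ (bE.sub bE') b₂ (h₁.subE h₁') (h₂.subE h₂')
    (fun f f' _ => by simp [h1]) f f' hd g

/-- **(5) of [0], lines at the ends** -/
theorem loc0D (hG : Geo X P) (b₁ : Bdd F₁) (b₂ : Bdd F₂) (bE : Bdd E)
    (h₁ : Rel X P E F₁) (h₂ : Rel X P E F₂) (hdis : Dis F₁ F₂) {q : ℂ}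
    (h1 : E 1 = q • (1 : K →L[ℂ] K)) : Loc0 F₁ F₂ E := by
  intro f f' hd g
  exact coreD hG b₁ bE b₂ h₁ h₂ (fun f f' hd => by
    rw [h1, mul_smul_comm, mul_one, smul_mul_assoc, hdis f f' hd, smul_zero]) f f' hd g

/-- **`Rel` from its two left halves** for star-preserving letters. -/
theorem Rel.mk' (hG : Geo X P) (hE : ∀ f, E (star f) = star (E f))
    (hF : ∀ g, F (star g) = star (F g))
    (l1 : ∀ a b i j, ∑ k, E (a * cx X i k) * F (cx P k j * b) = E (a * cx X i j) * F b)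
    (l2 : ∀ a b i j, ∑ k, E (a * cx X k j) * F (cx P i k * b) = E (a * cx X i j) * F b) :
    Rel X P E F := by
  have sx : ∀ i j, star (cx X i j) = cx X j i := by
    intro i j; ext y
    rw [ContinuousMap.star_apply, cx_apply, cx_apply, (hG.pt y).herm]
  have sp : ∀ i j, star (cx P i j) = cx P j i := by
    intro i j; ext y
    rw [ContinuousMap.star_apply, cx_apply, cx_apply, (hG.ln y).herm]
  refine ⟨l1, l2, fun a b i j => ?_, fun a b i j => ?_⟩
  · have := congrArg star (l1 (star a) (star b) j i)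
    rw [star_sum] at this
    simpa only [star_mul, ← hE, ← hF, star_star, sx, sp] using this
  · have := congrArg star (l2 (star a) (star b) j i)
    rw [star_sum] at this
    simpa only [star_mul, ← hE, ← hF, star_star, sx, sp] using this

end Vale.Agent.P092.H616.Cx
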