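import Vale.Agent.P092.H631.P0Leg
import Vale.Agent.P092.H616.CE
import Vale.Agent.P092.H616.CF

/-!
P092, TEAM P, TRACK C (helper616): [0] in the letters of `SP/Defs` from a realisation of points
and lines by hermitian projections, with the incidence relations `Cx.Rel` as hypothesis; the
realisation for `k = ℂ`.
-/

set_option linter.all false

open scoped InnerProductSpace
open ContinuousLinearMap Set MeasureTheory Filter Topology

namespace Vale.Agent.P092.H616.CH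

open Vale.Agent.P092.RC (Cm Moore GG PG YY y0)
open Vale.Agent.P092.H828.P (UL Loc Loc0 Dis)
open Vale.Agent.P092.H232 (Nin)
open Vale.Agent.P092.H616.Syn (bdd_of_UL)
open Vale.Agent.P092.H631.P0 (ul_of_sp i1_symm legC_of_loc)
open Vale.Agent.P092.SP
open Vale.Agent.P092.SP4

section leg

variable {k : Type} [NontriviallyNormedField k] [ProperSpace k] [MeasurableSpace k]
  {E Γ K : Type} [Group E] [TopologicalSpace E] [Group Γ] [NormedAddCommGroup K]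
  [InnerProductSpace ℂ K] [CompleteSpace K]
  {μ : Measure k} {w : kˣ} {𝒰 : Ultrafilter ℕ} {ι : S4 k →* E} {a : E →* PG k 4}
  {π : E →* (K →L[ℂ] K)} {lam : Γ →* (K →L[ℂ] K)} {W : Set (K →L[ℂ] K)} {Ω : K}
  {m : Set Γ → (K →L[ℂ] K)} {q : Γ → S4 k} {n : ℕ}
  {X : C(YY k 3, Matrix (Fin n) (Fin n) ℂ)} {P : C(LL k, Matrix (Fin n) (Fin n) ℂ)}
  {U11 : YY k 3 → (C(YY k 3, ℂ) →ₗ[ℂ] (K →L[ℂ] K))} {p11 : ℝ}
  {U12 : YY k 3 → (C(LL k, ℂ) →ₗ[ℂ] (K →L[ℂ] K))} {p12 : ℝ}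
  {U21 : LL k → (C(YY k 3, ℂ) →ₗ[ℂ] (K →L[ℂ] K))} {p21 : ℝ}
  {U22 : LL k → (C(LL k, ℂ) →ₗ[ℂ] (K →L[ℂ] K))} {p22 : ℝ}

/-- **[P-0], straight**, from a realisation by hermitian projections and the relations. -/
theorem straight_cx (hG : Cx.Geo X P)
    (h : LegP μ w 𝒰 ι a π lam W Ω m q U11 p11 U12 p12 U21 p21 U22 p22)
    (h1 : p11 = 1) (h2 : p22 = 1) (hR : ∀ c l, on c l → Cx.Rel X P (U11 c) (U22 l)) :
    ∃ Ec F, LegC on μ w 𝒰 ι a π lam W Ω m q (NA1 q) (NA2 q) Ec F ∧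
      (∀ c f, Ec c f = U11 c f) ∧ ∀ l g, F l g = U22 l g := by
  subst h1; subst h2
  have b1 : ∀ c, Syn.Bdd (U11 c) := fun c => bdd_of_UL (ul_of_sp (h.u11.ul c))
  have b2 : ∀ l, Syn.Bdd (U22 l) := fun l => bdd_of_UL (ul_of_sp (h.u22.ul l))
  have o1 : ∀ c c', U11 c 1 = U11 c' 1 := fun c c' =>
    (ul_of_sp (h.u11.ul c)).one.trans (ul_of_sp (h.u11.ul c')).one.symm
  have o2 : ∀ l l', U22 l 1 = U22 l' 1 := fun l l' =>
    (ul_of_sp (h.u22.ul l)).one.trans (ul_of_sp (h.u22.ul l')).one.symm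
  refine legC_of_loc h.base h.u11 h.u22 h.i11 ?_ ?_ ?_
  · intro c l l' hl hl'
    exact Cx.loc hG (b1 c) (b1 c) (b2 l) (b2 l') (hR c l hl) (hR c l' hl') (hR c l hl)
      (hR c l' hl') (o2 l l')
  · intro c c' l hc hc'
    exact Cx.locD hG (b2 l) (b2 l) (b1 c) (b1 c') (hR c l hc) (hR c' l hc') (hR c l hc)
      (hR c' l hc') (o1 c c')
  · intro c l hcl hd
    exact Cx.loc0 hG (b1 c) (b1 c) (b2 l) (hR c l hcl) (hR c l hcl) hd
      (ul_of_sp (h.u22.ul l)).one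

/-- **[P-0], flipped**, from a realisation by hermitian projections and the relations. -/
theorem flipped_cx (hG : Cx.Geo X P)
    (h : LegP μ w 𝒰 ι a π lam W Ω m q U11 p11 U12 p12 U21 p21 U22 p22)
    (h1 : p12 = 1) (h2 : p21 = 1) (hR : ∀ c l, on c l → Cx.Rel X P (U21 l) (U12 c)) :
    ∃ Ec F, LegC (flip on) μ w 𝒰 ι a π lam W Ω m q (NA2 q) (NA1 q) Ec F ∧
      (∀ c f, Ec c f = U12 c f) ∧ ∀ l g, F l g = U21 l g := by
  subst h1; subst h2
  have b1 : ∀ c, Syn.Bdd (U12 c) := fun c => bdd_of_UL (ul_of_sp (h.u12.ul c))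
  have b2 : ∀ l, Syn.Bdd (U21 l) := fun l => bdd_of_UL (ul_of_sp (h.u21.ul l))
  have o1 : ∀ c c', U12 c 1 = U12 c' 1 := fun c c' =>
    (ul_of_sp (h.u12.ul c)).one.trans (ul_of_sp (h.u12.ul c')).one.symm
  have o2 : ∀ l l', U21 l 1 = U21 l' 1 := fun l l' =>
    (ul_of_sp (h.u21.ul l)).one.trans (ul_of_sp (h.u21.ul l')).one.symm
  refine legC_of_loc (IT := flip on) h.base h.u12 h.u21 ?_ ?_ ?_ ?_
  · intro c l hcl g f hn
    exact i1_symm (ul_of_sp (h.u21.ul l)) (ul_of_sp (h.u12.ul c)) (h.i12 c l hcl) f g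
      (fun x hx z hz => hn z hz x hx)
  · intro c l l' hl hl'
    exact Cx.locD hG (b1 c) (b1 c) (b2 l) (b2 l') (hR c l hl) (hR c l' hl') (hR c l hl)
      (hR c l' hl') (o2 l l')
  · intro c c' l hc hc'
    exact Cx.loc hG (b2 l) (b2 l) (b1 c) (b1 c') (hR c l hc) (hR c' l hc') (hR c l hc)
      (hR c' l hc') (o1 c c')
  · intro c l hcl hd
    exact Cx.loc0D hG (b1 c) (b1 c) (b2 l) (hR c l hcl) (hR c l hcl) hd
      (ul_of_sp (h.u21.ul l)).one

end leg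

section cplx

open Vale.Agent.P092.H616.CG (pp gp pp_cont gp_cont pp_inj gp_inj hp_pp hp_gp gp_minor inc_iff
  hp pp_on gp_on)

/-- complex points as hermitian projections -/
noncomputable def XC : C(YY ℂ 3, Matrix (Fin 4) (Fin 4) ℂ) := ⟨fun x => pp x, pp_cont⟩

/-- complex isotropic lines as hermitian projections -/
noncomputable def PC : C(LL ℂ, Matrix (Fin 4) (Fin 4) ℂ) := ⟨fun l => gp l.1, gp_cont.comp val_cont⟩

theorem geoC : Cx.Geo XC PC where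
  injX := fun x y h => pp_inj h
  injP := fun l l' h => Subtype.ext (gp_inj h)
  pt := fun x => hp_pp x
  ln := fun l => hp_gp l.1
  minor := fun l => gp_minor l.1

theorem incC (x : YY ℂ 3) (l : LL ℂ) : on x l ↔ PC l * XC x = XC x := (inc_iff x l.1).symm

/-- a unit vector of a point -/
theorem XC_on (x : YY ℂ 3) :
    ∃ u : Fin 4 → ℂ, hp u u = 1 ∧ u ∈ x.submodule ∧ XC x = Matrix.vecMulVec u (star u) := pp_on x

/-- an orthonormal basis of a line, isotropic for the symplectic form -/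
theorem PC_on (l : LL ℂ) :
    ∃ u v : Fin 4 → ℂ, hp u u = 1 ∧ hp v v = 1 ∧ hp u v = 0 ∧ om u v = 0 ∧ u ∈ l.1.1 ∧
      v ∈ l.1.1 ∧ PC l = Matrix.vecMulVec u (star u) + Matrix.vecMulVec v (star v) := by
  obtain ⟨u, v, h1, h2, h3, h4, h5, h6⟩ := gp_on l.1
  exact ⟨u, v, h1, h2, h3, l.2 u h4 v h5, h4, h5, h6⟩

end cplx

end Vale.Agent.P092.H616.CH
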