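import Vale.Agent.P092.H616.CO
import Vale.Agent.P092.SP.Blocks
import Vale.Agent.P092.SP.Main

/-!
P092, TEAM P, TRACK C (helper616): the assembly over `ℂ` from the relations `RelA`.
-/

set_option linter.all false

open scoped InnerProductSpace ENNReal LinearAlgebra.Projectivization ZeroAtInfty
open Filter Topology ContinuousLinearMap MeasureTheory TopologicalSpace Matrix

namespace Vale.Agent.P092.H616.CO

open Vale.Agent.P092.RC (Cm TRN Moore GG PG YY y0)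
open Vale.Agent.P092.SN (ClsN TVE CoreE cleg_of)
open Vale.Agent.P092.SR Vale.Agent.P092.H160
open Vale.Agent.P092.RC (KK pic lam₁ lam₂ XX Om)
open Vale.Agent.P092.H35 (sp)
open Vale.Agent.P092.SP4
open Vale.Agent.P092.SP
open Vale.Agent.P092.H232 (Nin)
open Vale.Agent.P092.H631.P0 (ul_of_sp)
open Vale.Agent.P092.H616.CH (O2 XC PC geoC straight_cx flipped_cx)

/-- **the first half of Team P over `ℂ`** -/
theorem one_ofO [MeasurableSpace ℂ] {μ : Measure ℂ} (hP : PurStmt ℂ μ) (hA : RelA)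
    (h1 : Key1Stmt ℂ μ) (h1' : Key1Stmt' ℂ μ) (h2 : Key2Stmt ℂ μ) (h2' : Key2Stmt' ℂ μ)
    (syn : SynStmt ℂ) (hF : FlipStmt ℂ) : OneStmtO μ := by
  intro E Γ K _ _ _ _ _ _ w 𝒰 ι a π lam W Ω m q h
  obtain ⟨U11, p11, U12, p12, U21, p21, U22, p22, h, o1, o2⟩ := h
  rcases hP w 𝒰 ι a π lam W Ω m q U11 p11 U12 p12 U21 p21 U22 p22 h with ⟨e1, e2⟩ | ⟨e1, e2⟩
  · have hR : ∀ c l, on c l → Cx.Rel XC PC (U11 c) (U22 l) := fun c l hcl =>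
      hA (U11 c) (U22 l) (ul_of_sp (by rw [← e1]; exact h.u11.ul c))
        (ul_of_sp (by rw [← e2]; exact h.u22.ul l)) (h.i11 c l hcl) (o1 c)
    obtain ⟨Ec, F, hl, -, -⟩ := straight_cx geoC h e1 e2 hR
    exact ⟨Ec, F, hl, comS syn hl (h1 w 𝒰 ι a π lam W Ω m q Ec F hl)
      (h2 w 𝒰 ι a π lam W Ω m q Ec F hl)⟩
  · have hR : ∀ c l, on c l → Cx.Rel XC PC (U21 l) (U12 c) := fun c l hcl =>
      hA (U21 l) (U12 c) (ul_of_sp (by rw [← e2]; exact h.u21.ul l))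
        (ul_of_sp (by rw [← e1]; exact h.u12.ul c)) (h.i12 c l hcl) (o2 l)
    obtain ⟨Ec, F, hl, -, -⟩ := flipped_cx geoC h e1 e2 hR
    have hn : Nontrivial K := ⟨Ω, 0, fun h0 => by
      have := h.base.pic.nΩ
      rw [h0, norm_zero] at this
      exact zero_ne_one this⟩
    exact (hF Ec F hl.pl hl.e.agr hl.f.agr (comF syn hl (h1' w 𝒰 ι a π lam W Ω m q Ec F hl)
      (h2' w 𝒰 ι a π lam W Ω m q Ec F hl))).elim

/-- **Assembly over `ℂ`.** -/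
theorem coreE_ofO [MeasurableSpace ℂ] {μ : Measure ℂ} {E : Type} [Group E] [TopologicalSpace E]
    [IsTopologicalGroup E] [LocallyCompactSpace E] [SecondCountableTopology E] [T2Space E]
    [NoncompactSpace E] {ι : S4 ℂ →* E} {a : E →* PG ℂ 4}
    (hOne : OneStmtO μ) (hCls : ClsStmt ℂ μ) (hXC : XCStmt ℂ) (hEx : ExStmtO μ ι a) :
    CoreE E := by
  intro Γ hΓ hicc Λ _ _ hΛ α hα
  letI : MeasurableSpace E := borel _
  haveI : BorelSpace E := ⟨rfl⟩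
  haveI hd : DiscreteTopology Γ := hΓ.disc
  haveI hc : Countable Γ := H790.countable_of_discrete (E := E) Γ
  letI : MeasurableSpace (E ⧸ Γ) := borel _
  haveI : BorelSpace (E ⧸ Γ) := ⟨rfl⟩
  obtain ⟨ν, hP', hν⟩ := H515.IsLattice.exists_prob (Λ := Γ) ⟨hΓ.disc, hΓ.covol⟩
  have p2 := H34.PicC.pic2 hν hα hΛ
  have tv1 : TVE (pic hν hα) (lam₁ ν α) (XX ν Λ ∪ Set.range (lam₂ ν α)) (Om ν Λ) := by
    rintro Y ⟨hY, hY1⟩ h
    exact H103.tv_gen hν hα (fun A hA => hY _ (Or.inl ⟨A, hA, rfl⟩)) hY1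
      (fun g => hY _ (Or.inr ⟨g, rfl⟩)) h
  have tv2 : TVE (pic hν hα) (lam₂ ν α) (XX ν Λ ∪ Set.range (lam₁ ν α)) (Om ν Λ) := by
    rintro Y ⟨hY, hY1⟩ h
    exact H103.tv_gen hν hα (fun A hA => hY _ (Or.inl ⟨A, hA, rfl⟩))
      (fun g => hY _ (Or.inr ⟨g, rfl⟩)) hY1 h
  obtain ⟨w, 𝒰, m₁, m₂, q₁, q₂, l1, l2, i1, i2⟩ := hEx (Γ := Γ) hν hΓ hicc hΛ hα
  obtain ⟨E₁, F₁, c1⟩ := hOne w 𝒰 ι a _ _ _ _ m₁ q₁ l1
  obtain ⟨E₂, F₂, c2⟩ := hOne w 𝒰 ι a _ _ _ _ m₂ q₂ l2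
  obtain ⟨σ₁, Q₁, hQ1⟩ := hCls w 𝒰 ι a _ _ _ _ m₁ q₁ E₁ F₁ c1
  obtain ⟨σ₂, Q₂, hQ2⟩ := hCls w 𝒰 ι a _ _ _ _ m₂ q₂ E₂ F₂ c2
  have hX := hXC ι a _ _ _ _ _ q₁ q₂ E₁ E₂ σ₁ σ₂ Q₁ Q₂ c1.leg.base.adm p2 tv1 tv2
    c1.leg.base.ph c2.leg.base.ph c1.leg.base.fin c2.leg.base.fin hQ1 hQ2
  exact H264.Cl.mono_of_legs hν hα (cleg_of hQ1 c1.leg.base.ph i1 c1.leg.base.fin)
    (cleg_of hQ2 c2.leg.base.ph i2 c2.leg.base.fin) hX

end Vale.Agent.P092.H616.CO
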