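import Vale.Agent.P092.H616.CZ
import Vale.Agent.P092.SP.OneAll
import Vale.Agent.P092.SP.Fin
import Vale.Agent.P092.SP.ExO
import Vale.Agent.P092.H378.C8
import Vale.Agent.P092.H336.SynStmt
import Vale.Agent.P092.H261.C1h
import Vale.Agent.P092.H464.P.C2

/-!
P092, TEAM P, TRACK C (helper616): `CoreE E` for every admissible source group over `ℂ`
(`Sp_4(ℂ)`, `PSp_4(ℂ)`), `t = 1`.
-/

set_option linter.all false

open scoped InnerProductSpace ENNReal LinearAlgebra.Projectivization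
open Filter Topology ContinuousLinearMap MeasureTheory TopologicalSpace Matrix

namespace Vale.Agent.P092.H616.CO

open Vale.Agent.P092.SP4
open Vale.Agent.P092.SP
open Vale.Agent.P092.RC (PG YY GG y0)
open Vale.Agent.P092.SN (CoreE)
open Vale.Agent.P092.H684.Psp (PSp4)

theorem lkC : H515.St.LocK ℂ := .cplx (RingEquiv.refl ℂ) fun _ => rfl

/-- **the first half over `ℂ`** -/
theorem oneO (hA : RelA) [i1 : MeasurableSpace ℂ] [i2 : BorelSpace ℂ] (μ : Measure ℂ)
    [IsFiniteMeasureOnCompacts μ] [μ.IsOpenPosMeasure] : OneStmtO μ := by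
  have hk : H933.LocK ℂ := SN.lk lkC
  have c1 : H99.P.Count1Stmt ℂ := H261.C1.count1 hk
  have c2 : H99.P.Count2Stmt ℂ := H464.PC.count2Stmt hk
  have e0 : PurStmt ℂ μ := purStmt μ
  have e1 : Key1Stmt ℂ μ := key1Stmt μ c1
  have e1' : Key1Stmt' ℂ μ := key1Stmt' μ c2
  have e2 : Key2Stmt ℂ μ := key2Stmt μ c2
  have e2' : Key2Stmt' ℂ μ := key2Stmt' μ c1
  have e3 : SynStmt ℂ := H336.synStmt lkC
  have e4 : FlipStmt ℂ := flipStmt two_ne_zero
  exact @one_ofO _ μ e0 hA e1 e1' e2 e2' e3 e4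

/-- **`CoreE` for every admissible source group over `ℂ`**. -/
theorem coreE_admC {E : Type} [Group E] [TopologicalSpace E]
    [IsTopologicalGroup E] [LocallyCompactSpace E] [SecondCountableTopology E] [T2Space E]
    {ι : S4 ℂ →* E} {a : E →* PG ℂ 4} (h : Adm ι a) : CoreE E := by
  letI : MeasurableSpace ℂ := borel ℂ
  haveI : BorelSpace ℂ := ⟨rfl⟩
  haveI := nc_E h
  exact coreE_ofO (μ := (Measure.addHaar : Measure ℂ)) (oneO H378.C.relA _) (H416.clsStmt _)
    (H325.xcStmtP ℂ) (exStmtO_of_half (halfStmtO_of (SN.lk lkC) h (gapStmt two_ne_zero)))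

/-- **`Sp_4(ℂ)`** -/
theorem coreE_S4C : CoreE (S4 ℂ) := by
  haveI : LocallyCompactSpace (S4 ℂ) := lc_S4
  haveI : SecondCountableTopology (S4 ℂ) := sc_S4
  exact coreE_admC H714.AdmS4.adm_id

/-- **`PSp_4(ℂ)`** -/
theorem coreE_PSpC : CoreE (PSp4 ℂ) :=
  coreE_admC (H714.AdmS4.adm_quo _ (H684.Psp.scc ℂ))

end Vale.Agent.P092.H616.CO
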