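import Vale.Agent.P092.H616.HA
import Vale.Agent.P092.H99.CL.One
import Vale.Agent.P092.H100.SU.Defs

/-!
P092, TRACK H (helper616): the first half (Witt index `2`) from the two polynomial counts and the
incidence relations; the Lemma O of order one passes along unitaries.
-/

set_option linter.all false

open scoped InnerProductSpace ENNReal
open Filter Topology ContinuousLinearMap MeasureTheory TopologicalSpace

namespace Vale.Agent.P092.H616.HA

open Vale.Agent.P092.RC (cj)
open Vale.Agent.P092.H232 (Nin)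
open Vale.Agent.P092.CL
open Vale.Agent.P092.SP (GQ)
open Vale.Agent.P092.H100.SU (O1 Sec1 Far1 RelHStmt)
open Vale.Agent.P092.H99.CL (Count1Stmt Count2Stmt)

variable {S P M V₁ V₂ : Type} [Group S] [MeasurableSpace V₁] [MeasurableSpace V₂]
  [TopologicalSpace S] [MulAction S P] [TopologicalSpace P] [CompactSpace P]
  [ContinuousConstSMul S P] [MulAction S M] [TopologicalSpace M] [CompactSpace M]
  [ContinuousConstSMul S M] [NormedAddCommGroup V₁] [NormedAddCommGroup V₂]
  {L : Lt S P M V₁ V₂} {n : ℕ} {X : C(P, Matrix (Fin n) (Fin n) ℂ)}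
  {Q : C(M, Matrix (Fin n) (Fin n) ℂ)} {D : Matrix (Fin n) (Fin n) ℂ}

/-- Lemma O of order one passes along unitaries. -/
theorem twR_O1 (X : C(P, Matrix (Fin n) (Fin n) ℂ)) (D : Matrix (Fin n) (Fin n) ℂ) :
    TwR (P := P) (fun {K} _ _ U => O1 X D U) := by
  intro K K' _ _ _ _ _ _ u U h r f g C δ hδ h1 h2
  have e : ∀ i, H53.TwX.cjU u U (f i) * H53.TwX.cjU u U (g i) = cj u (U (f i) * U (g i)) :=
    fun i => by rw [H53.TwX.cjU_ap, H53.TwX.cjU_ap, map_mul]
  rw [Finset.sum_congr rfl fun i _ => e i, ← map_sum, h r f g C δ hδ h1 h2, map_zero]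

/-- the relations in the letters of a record -/
theorem relR_of (hinc : ∀ x l, L.In x l ↔ Q l * X x = X x) (h : RelHStmt X Q D) :
    RelR (fun {K} _ _ U => O1 X D U) L X Q := by
  intro K _ _ _ E F hE hF hI hO
  exact h E F hE hF (fun f g hn => hI f g fun x hx z hz hin => hn x hx z hz ((hinc x z).1 hin)) hO

variable {Rl : ∀ {K : Type} [NormedAddCommGroup K] [InnerProductSpace ℂ K],
      (C(P, ℂ) →ₗ[ℂ] (K →L[ℂ] K)) → Prop}
  [ProperSpace V₁] [BorelSpace V₁] [ProperSpace V₂] [BorelSpace V₂]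
  [IsFiniteMeasureOnCompacts L.μ₁] [L.μ₁.IsOpenPosMeasure]
  [IsFiniteMeasureOnCompacts L.μ₂] [L.μ₂.IsOpenPosMeasure]

/-- **The first half**, Witt index `2`, from the two polynomial counts and the relations. -/
theorem oneR_counts (hG : CL.Geo L) (hQ : GQ L.In) (hg : Cx.Geo X Q) (hP : PurStmt L)
    (hA : RelR Rl L X Q) (h1 : Count1Stmt L) (h2 : Count2Stmt L) (syn : H99.CL.SynStmt L)
    (hF : FlipStmt L) : OneStmtR Rl L :=
  haveI := hG.t2P
  haveI := hG.t2M
  one_ofR hQ hG.in_cl hg hP hA (H99.CL.key1Stmt hG hQ h1) (H99.CL.key1Stmt' hG hQ h2)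
    (H99.CL.key2Stmt hG hQ h2) (H99.CL.key2Stmt' hG hQ h1) syn hF

end Vale.Agent.P092.H616.HA
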