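import Vale.Agent.P092.H616.SynA

/-! Synthesis over the reals, abstract part 2: from cells to all disjoint supports, and the
density argument in the middle variable. -/

set_option linter.unusedSectionVars false

namespace Vale.Agent.P092.H616.Syn

open scoped BigOperators
open Finset

variable {n m : ℕ}
variable {Y Z : Type*} [TopologicalSpace Y] [CompactSpace Y] [T2Space Y]
variable [TopologicalSpace Z] [CompactSpace Z] [T2Space Z]
variable {V : Type*} [NormedAddCommGroup V] [NormedSpace ℂ V]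

/-- a finite partition of unity along which a matrix family oscillates little -/
theorem exists_fine (U : C(Y, Matrix (Fin n) (Fin n) ℝ)) (ε : ℝ) (hε : 0 < ε) :
    ∃ (t : Finset Y) (ρ : t → C(Y, ℂ)), (∑ i, ρ i = 1) ∧
      ∀ i, ∀ y ∈ tsupport (⇑(ρ i)), ∀ y' ∈ tsupport (⇑(ρ i)), ∀ j k, |U y j k - U y' j k| ≤ ε := by
  classical
  let O : Y → Set Y := fun y => {z | ∀ j k, |U z j k - U y j k| < ε / 2}
  have hO : ∀ y, IsOpen (O y) := by
    intro y
    have : O y = ⋂ j, ⋂ k, {z | |U z j k - U y j k| < ε / 2} := by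
      ext z; simp [O]
    rw [this]
    refine isOpen_iInter_of_finite fun j => isOpen_iInter_of_finite fun k => ?_
    exact isOpen_lt ((((U.continuous.matrix_elem j k)).sub continuous_const).abs) continuous_const
  have hcov : (Set.univ : Set Y) ⊆ ⋃ y, O y := by
    intro y _
    refine Set.mem_iUnion.2 ⟨y, fun j k => ?_⟩
    simpa using half_pos hε
  obtain ⟨t, ht⟩ := isCompact_univ.elim_finite_subcover O hO hcov
  have hcov' : (Set.univ : Set Y) ⊆ ⋃ i : t, O i := by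
    intro y hy
    obtain ⟨i, hi, hyi⟩ := Set.mem_iUnion₂.1 (ht hy)
    exact Set.mem_iUnion.2 ⟨⟨i, hi⟩, hyi⟩
  obtain ⟨f, hf⟩ := PartitionOfUnity.exists_isSubordinate isClosed_univ (fun i : t => O i)
    (fun i => hO i) hcov'
  refine ⟨t, fun i => ⟨fun y => ((f i y : ℝ) : ℂ),
    Complex.continuous_ofReal.comp (f i).continuous⟩, ?_, ?_⟩
  · ext y
    have h1 := f.sum_eq_one (Set.mem_univ y)
    rw [finsum_eq_sum_of_fintype] at h1
    simp only [ContinuousMap.coe_sum, ContinuousMap.coe_mk, Finset.sum_apply,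
      ContinuousMap.one_apply]
    rw [← Complex.ofReal_sum, h1, Complex.ofReal_one]
  · intro i y hy y' hy' j k
    have hsub : ∀ z, z ∈ tsupport (fun y => ((f i y : ℝ) : ℂ)) → z ∈ O i := by
      intro z hz
      refine hf i ?_
      refine closure_mono ?_ hz
      intro w hw
      simpa [Function.mem_support] using hw
    have h1 := hsub y hy j k
    have h2 := hsub y' hy' j k
    rw [abs_lt] at h1 h2
    rw [abs_le]
    constructor <;> linarith [h1.1, h1.2, h2.1, h2.2]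

theorem glob_zero (U : C(Y, Matrix (Fin n) (Fin n) ℝ)) (c : ℝ) (hc : 0 < c)
    (G : C(Y, ℂ) →ₗ[ℂ] C(Y, ℂ) →ₗ[ℂ] V) (M : ℝ) (hM : 0 ≤ M)
    (hbd : ∀ a a' : C(Y, ℂ), ‖G a a'‖ ≤ M * ‖a‖ * ‖a'‖)
    (hU1 : ∀ y i j, |U y i j| ≤ 1)
    (htr : ∀ y y', y ≠ y' → |∑ j, ∑ k, U y j k * U y' k j| < c)
    (hG : ∀ a a' : C(Y, ℂ), Disjoint (tsupport (⇑a)) (tsupport (⇑a')) →
      (c : ℂ) • G a a' = ∑ j, ∑ k, G (a * cx U j k) (a' * cx U k j))
    (a a' : C(Y, ℂ)) (hd : Disjoint (tsupport (⇑a)) (tsupport (⇑a'))) : G a a' = 0 := by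
  classical
  by_cases hne : (tsupport (⇑a) ×ˢ tsupport (⇑a')).Nonempty
  swap
  · rw [Set.not_nonempty_iff_eq_empty, Set.prod_eq_empty_iff, tsupport_eq_empty_iff,
      tsupport_eq_empty_iff] at hne
    rcases hne with h | h
    · have : a = 0 := by ext y; exact congrFun h y
      rw [this]; simp
    · have : a' = 0 := by ext y; exact congrFun h y
      rw [this]; simp
  have hcomp : IsCompact (tsupport (⇑a) ×ˢ tsupport (⇑a')) :=
    (isClosed_tsupport _).isCompact.prod (isClosed_tsupport _).isCompact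
  have hcont : Continuous fun q : Y × Y => |∑ j, ∑ k, U q.1 j k * U q.2 k j| := by
    refine (continuous_finsetSum _ fun j _ => continuous_finsetSum _ fun k _ => ?_).abs
    exact ((U.continuous.matrix_elem j k).comp continuous_fst).mul
      ((U.continuous.matrix_elem k j).comp continuous_snd)
  obtain ⟨q, hq, hmax⟩ := hcomp.exists_isMaxOn hne hcont.continuousOn
  set μ : ℝ := |∑ j, ∑ k, U q.1 j k * U q.2 k j| with hμ
  have hμc : μ < c := htr q.1 q.2 fun h => by
    have := Set.disjoint_left.1 hd hq.1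
    exact this (h ▸ hq.2)
  have hμ0 : 0 ≤ μ := abs_nonneg _
  obtain ⟨ε, hε, hε1, hε2⟩ : ∃ ε : ℝ, 0 < ε ∧ ε ≤ 1 ∧ μ + (n * n : ℝ) * (3 * ε) ≤ (μ + c) / 2 := by
    refine ⟨min 1 ((c - μ) / (6 * (n * n + 1))), ?_, min_le_left _ _, ?_⟩
    · have : 0 < (c - μ) / (6 * (n * n + 1) : ℝ) := by
        apply div_pos (by linarith); positivity
      exact lt_min one_pos this
    · have h1 : min 1 ((c - μ) / (6 * (n * n + 1) : ℝ)) ≤ (c - μ) / (6 * (n * n + 1)) :=
        min_le_right _ _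
      have h2 : (n * n : ℝ) * (3 * ((c - μ) / (6 * (n * n + 1)))) ≤ (c - μ) / 2 := by
        have h3 : (n * n : ℝ) * (3 * ((c - μ) / (6 * (n * n + 1))))
            = ((n * n : ℝ) / (n * n + 1)) * ((c - μ) / 2) := by
          field_simp; ring
        rw [h3]
        have h4 : (n * n : ℝ) / (n * n + 1) ≤ 1 := by
          rw [div_le_one (by positivity)]; linarith
        have : 0 ≤ (c - μ) / 2 := by linarith
        nlinarith
      have h5 : (n * n : ℝ) * (3 * min 1 ((c - μ) / (6 * (n * n + 1) : ℝ)))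
          ≤ (n * n : ℝ) * (3 * ((c - μ) / (6 * (n * n + 1)))) := by
        have : (0 : ℝ) ≤ n * n := by positivity
        nlinarith
      linarith
  obtain ⟨t, ρ, hρ1, hρ⟩ := exists_fine U ε hε
  have ea : a = ∑ i, ρ i * a := by rw [← Finset.sum_mul, hρ1, one_mul]
  have ea' : a' = ∑ i, ρ i * a' := by rw [← Finset.sum_mul, hρ1, one_mul]
  have hz : ∀ i i', G (ρ i * a) (ρ i' * a') = 0 := by
    intro i i'
    by_cases h1 : (tsupport (⇑(ρ i * a))).Nonempty
    swap
    · rw [Set.not_nonempty_iff_eq_empty, tsupport_eq_empty_iff] at h1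
      have : ρ i * a = 0 := by ext y; exact congrFun h1 y
      rw [this]; simp
    by_cases h2 : (tsupport (⇑(ρ i' * a'))).Nonempty
    swap
    · rw [Set.not_nonempty_iff_eq_empty, tsupport_eq_empty_iff] at h2
      have : ρ i' * a' = 0 := by ext y; exact congrFun h2 y
      rw [this]; simp
    obtain ⟨y, hy⟩ := h1
    obtain ⟨y', hy'⟩ := h2
    have s1 : tsupport (⇑(ρ i * a)) ⊆ tsupport (⇑(ρ i)) := tsupport_mul_sub _ _
    have s2 : tsupport (⇑(ρ i * a)) ⊆ tsupport (⇑a) := by rw [mul_comm]; exact tsupport_mul_sub _ _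
    have s1' : tsupport (⇑(ρ i' * a')) ⊆ tsupport (⇑(ρ i')) := tsupport_mul_sub _ _
    have s2' : tsupport (⇑(ρ i' * a')) ⊆ tsupport (⇑a') := by
      rw [mul_comm]; exact tsupport_mul_sub _ _
    have hm : |∑ j, ∑ k, U y j k * U y' k j| ≤ μ := hmax (Set.mk_mem_prod (s2 hy) (s2' hy'))
    refine cell_zero U c hc G M hM hbd (tsupport (⇑(ρ i * a))) (tsupport (⇑(ρ i' * a')))
      (U y) (U y') ε ((μ + c) / 2 / c) hε.le hε1 (fun z hz j k => hρ i z (s1 hz) y (s1 hy) j k)
      (fun z hz j k => hρ i' z (s1' hz) y' (s1' hy') j k) (fun _ _ => hU1 _ _ _)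
      (fun _ _ => hU1 _ _ _) ?_ (by positivity) ?_ ?_ _ _ subset_rfl subset_rfl
    · rw [div_mul_cancel₀ _ hc.ne']; linarith
    · rw [div_lt_one hc]; linarith
    · intro b b' hb hb'
      exact hG b b' (hd.mono (hb.trans s2) (hb'.trans s2'))
  rw [ea, ea']
  simp [hz]

/-- the density argument: a trilinear map which vanishes on disjointly supported ends for the
middle function `1`, and for which the middle coordinate functions can be moved to the ends,
vanishes on disjointly supported ends. -/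
theorem mid_zero (U : C(Y, Matrix (Fin n) (Fin n) ℝ)) (W : C(Z, Matrix (Fin m) (Fin m) ℝ))
    (hW : Function.Injective W) (c : ℝ) (hc : 0 < c)
    (T : C(Y, ℂ) →ₗ[ℂ] C(Z, ℂ) →ₗ[ℂ] C(Y, ℂ) →ₗ[ℂ] V) (M : ℝ) (hM : 0 ≤ M)
    (hbd : ∀ a b a', ‖T a b a'‖ ≤ M * ‖a‖ * ‖b‖ * ‖a'‖)
    (hU1 : ∀ y i j, |U y i j| ≤ 1)
    (htr : ∀ y y', y ≠ y' → |∑ j, ∑ k, U y j k * U y' k j| < c)
    (h1 : ∀ a a' : C(Y, ℂ), Disjoint (tsupport (⇑a)) (tsupport (⇑a')) → T a 1 a' = 0)
    (hstep : ∀ b : C(Z, ℂ), (∀ a a' : C(Y, ℂ), Disjoint (tsupport (⇑a)) (tsupport (⇑a')) →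
      T a b a' = 0) → ∀ i l, ∀ a a' : C(Y, ℂ), Disjoint (tsupport (⇑a)) (tsupport (⇑a')) →
      (c : ℂ) • T a (cx W i l * b) a'
        = ∑ j, ∑ k, T (a * cx U j k) (cx W i l * b) (a' * cx U k j))
    (a a' : C(Y, ℂ)) (hd : Disjoint (tsupport (⇑a)) (tsupport (⇑a'))) (b : C(Z, ℂ)) :
    T a b a' = 0 := by
  classical
  let B : Set C(Z, ℂ) := {b | ∀ a a' : C(Y, ℂ), Disjoint (tsupport (⇑a)) (tsupport (⇑a')) →
      T a b a' = 0}
  have hcontT : ∀ a a' : C(Y, ℂ), Continuous fun b => T a b a' := by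
    intro a a'
    refine AddMonoidHomClass.continuous_of_bound ((T a).flip a') (M * ‖a‖ * ‖a'‖) fun b => ?_
    calc ‖(T a).flip a' b‖ = ‖T a b a'‖ := rfl
      _ ≤ M * ‖a‖ * ‖b‖ * ‖a'‖ := hbd a b a'
      _ = M * ‖a‖ * ‖a'‖ * ‖b‖ := by ring
  have hBclosed : IsClosed B := by
    have : B = ⋂ a : C(Y, ℂ), ⋂ a' : C(Y, ℂ), ⋂ _ : Disjoint (tsupport (⇑a)) (tsupport (⇑a')),
        {b | T a b a' = 0} := by
      ext b; simp [B]
    rw [this]
    exact isClosed_iInter fun a => isClosed_iInter fun a' => isClosed_iInter fun _ =>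
      isClosed_eq (hcontT a a') continuous_const
  have hB1 : (1 : C(Z, ℂ)) ∈ B := h1
  have hBadd : ∀ b ∈ B, ∀ b' ∈ B, b + b' ∈ B := by
    intro b hb b' hb' a a' hd
    simp [hb a a' hd, hb' a a' hd]
  have hBsmul : ∀ (z : ℂ), ∀ b ∈ B, z • b ∈ B := by
    intro z b hb a a' hd
    simp [hb a a' hd]
  have hBW : ∀ b ∈ B, ∀ i l, cx W i l * b ∈ B := by
    intro b hb i l a a' hd
    let G : C(Y, ℂ) →ₗ[ℂ] C(Y, ℂ) →ₗ[ℂ] V := T.flip (cx W i l * b)
    have hGbd : ∀ a a' : C(Y, ℂ), ‖G a a'‖ ≤ (M * ‖cx W i l * b‖) * ‖a‖ * ‖a'‖ := by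
      intro a a'
      calc ‖G a a'‖ = ‖T a (cx W i l * b) a'‖ := rfl
        _ ≤ M * ‖a‖ * ‖cx W i l * b‖ * ‖a'‖ := hbd _ _ _
        _ = _ := by ring
    exact glob_zero U c hc G (M * ‖cx W i l * b‖) (by positivity) hGbd hU1 htr
      (fun a a' hd => hstep b hb i l a a' hd) a a' hd
  let A : Subalgebra ℂ C(Z, ℂ) :=
    { carrier := {u | ∀ b ∈ B, u * b ∈ B}
      mul_mem' := by
        intro u v hu hv b hb
        rw [mul_assoc]; exact hu _ (hv _ hb)
      add_mem' := by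
        intro u v hu hv b hb
        rw [add_mul]; exact hBadd _ (hu _ hb) _ (hv _ hb)
      algebraMap_mem' := by
        intro z b hb
        rw [← Algebra.smul_def]; exact hBsmul z b hb }
  have hAclosed : IsClosed (A : Set C(Z, ℂ)) := by
    have : (A : Set C(Z, ℂ)) = ⋂ b ∈ B, (fun u => u * b) ⁻¹' B := by
      ext u; simp [A]
    rw [this]
    exact isClosed_biInter fun b _ => hBclosed.preimage (continuous_id.mul continuous_const)
  let s : Set C(Z, ℂ) := {u | ∃ i l, u = cx W i l}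
  have hsA : s ⊆ (A : Set C(Z, ℂ)) := by
    rintro _ ⟨i, l, rfl⟩ b hb
    exact hBW b hb i l
  have hstar : star s = s := by
    have hcxs : ∀ i l, star (cx W i l) = cx W i l := by
      intro i l; ext y; simp
    ext u
    constructor
    · rintro ⟨i, l, h⟩
      exact ⟨i, l, by rw [← star_star u, h, hcxs]⟩
    · rintro ⟨i, l, rfl⟩
      exact ⟨i, l, hcxs i l⟩
  have hle : ((StarAlgebra.adjoin ℂ s : StarSubalgebra ℂ C(Z, ℂ)) : Set C(Z, ℂ)) ⊆ A := by
    have h0 : (StarAlgebra.adjoin ℂ s).toSubalgebra = Algebra.adjoin ℂ s := by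
      rw [StarAlgebra.adjoin_toSubalgebra, hstar, Set.union_self]
    have h2 : Algebra.adjoin ℂ s ≤ A := Algebra.adjoin_le hsA
    intro u hu
    apply h2
    rw [← h0]; exact hu
  have hsep : (StarAlgebra.adjoin ℂ s : StarSubalgebra ℂ C(Z, ℂ)).SeparatesPoints := by
    intro z z' hzz
    have : W z ≠ W z' := fun h => hzz (hW h)
    obtain ⟨i, l, hil⟩ : ∃ i l, W z i l ≠ W z' i l := by
      by_contra hcon
      push Not at hcon
      exact this (by ext i l; exact hcon i l)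
    refine ⟨cx W i l, ⟨cx W i l, ?_, rfl⟩, ?_⟩
    · exact StarAlgebra.subset_adjoin ℂ s ⟨i, l, rfl⟩
    · simpa using hil
  have htop := ContinuousMap.starSubalgebra_topologicalClosure_eq_top_of_separatesPoints _ hsep
  have hall : ∀ u : C(Z, ℂ), u ∈ A := by
    intro u
    have hu : u ∈ (StarAlgebra.adjoin ℂ s : StarSubalgebra ℂ C(Z, ℂ)).topologicalClosure := by
      rw [htop]; trivial
    have : u ∈ closure ((StarAlgebra.adjoin ℂ s : StarSubalgebra ℂ C(Z, ℂ)) : Set C(Z, ℂ)) := hu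
    exact closure_minimal hle hAclosed this
  have := hall b 1 hB1 a a' hd
  rwa [mul_one] at this

end Vale.Agent.P092.H616.Syn
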