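import Mathlib

/-! Synthesis over the reals: the matrix algebra modulo the incidence ideal. -/

namespace Vale.Agent.P092.H616.Syn

open scoped BigOperators TensorProduct
open Finset

section mat

variable {n : ℕ} {Q : Type*} [CommRing Q]

/-- all `3 × 3` minors vanish -/
def Minor (P : Matrix (Fin n) (Fin n) Q) : Prop :=
  ∀ i k s j r l, P i j * P k r * P s l + P i r * P s j * P k l + P k j * P s r * P i l
    = P k j * P i r * P s l + P s r * P i j * P k l + P s j * P k r * P i l

theorem sum_swap2 (f : Fin n → Fin n → Fin n → Fin n → Q) :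
    ∑ k, ∑ j, ∑ s, ∑ r, f k j s r = ∑ s, ∑ r, ∑ k, ∑ j, f k j s r := by
  calc ∑ k, ∑ j, ∑ s, ∑ r, f k j s r = ∑ k, ∑ s, ∑ j, ∑ r, f k j s r :=
        sum_congr rfl fun k _ => sum_comm
    _ = ∑ s, ∑ k, ∑ j, ∑ r, f k j s r := sum_comm
    _ = ∑ s, ∑ k, ∑ r, ∑ j, f k j s r :=
        sum_congr rfl fun s _ => sum_congr rfl fun k _ => sum_comm
    _ = ∑ s, ∑ r, ∑ k, ∑ j, f k j s r := sum_congr rfl fun s _ => sum_comm

theorem mul_sum2 (a b : Fin n → Fin n → Q) :
    (∑ k, ∑ j, a k j) * (∑ s, ∑ r, b s r) = ∑ k, ∑ j, ∑ s, ∑ r, a k j * b s r := by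
  simp only [Finset.sum_mul]
  simp only [Finset.mul_sum]

theorem minor_id (P A B : Matrix (Fin n) (Fin n) Q) (hP : Minor P) :
    P * A * P * B * P + P * B * P * A * P + (Matrix.trace (P * A) * Matrix.trace (P * B)) • P
      = Matrix.trace (P * A) • (P * B * P) + Matrix.trace (P * B) • (P * A * P)
        + Matrix.trace (P * A * P * B) • P := by
  ext i l
  have t1 : (P * A * P * B * P) i l
      = ∑ s, ∑ r, ∑ k, ∑ j, (P i j * P k r * P s l) * (A j k * B r s) := by
    simp only [Matrix.mul_apply, Finset.sum_mul]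
    refine sum_congr rfl fun s _ => sum_congr rfl fun r _ => sum_congr rfl fun k _ =>
      sum_congr rfl fun j _ => by ring
  have t2 : (P * B * P * A * P) i l
      = ∑ s, ∑ r, ∑ k, ∑ j, (P i r * P s j * P k l) * (A j k * B r s) := by
    rw [← sum_swap2 fun k j s r => (P i r * P s j * P k l) * (A j k * B r s)]
    simp only [Matrix.mul_apply, Finset.sum_mul]
    refine sum_congr rfl fun s _ => sum_congr rfl fun r _ => sum_congr rfl fun k _ =>
      sum_congr rfl fun j _ => by ring
  have trA : Matrix.trace (P * A) = ∑ k, ∑ j, P k j * A j k := by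
    simp only [Matrix.trace, Matrix.diag_apply, Matrix.mul_apply]
  have trB : Matrix.trace (P * B) = ∑ k, ∑ j, P k j * B j k := by
    simp only [Matrix.trace, Matrix.diag_apply, Matrix.mul_apply]
  have eA : (P * A * P) i l = ∑ k, ∑ j, P i j * A j k * P k l := by
    simp only [Matrix.mul_apply, Finset.sum_mul]
  have eB : (P * B * P) i l = ∑ k, ∑ j, P i j * B j k * P k l := by
    simp only [Matrix.mul_apply, Finset.sum_mul]
  have t3 : Matrix.trace (P * A) * Matrix.trace (P * B) * P i l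
      = ∑ s, ∑ r, ∑ k, ∑ j, (P k j * P s r * P i l) * (A j k * B r s) := by
    rw [← sum_swap2 fun k j s r => (P k j * P s r * P i l) * (A j k * B r s), trA, trB, mul_sum2]
    simp only [Finset.sum_mul]
    refine sum_congr rfl fun s _ => sum_congr rfl fun r _ => sum_congr rfl fun k _ =>
      sum_congr rfl fun j _ => by ring
  have t4 : Matrix.trace (P * A) * (P * B * P) i l
      = ∑ s, ∑ r, ∑ k, ∑ j, (P k j * P i r * P s l) * (A j k * B r s) := by
    rw [← sum_swap2 fun k j s r => (P k j * P i r * P s l) * (A j k * B r s), trA, eB, mul_sum2]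
    refine sum_congr rfl fun s _ => sum_congr rfl fun r _ => sum_congr rfl fun k _ =>
      sum_congr rfl fun j _ => by ring
  have t5 : Matrix.trace (P * B) * (P * A * P) i l
      = ∑ s, ∑ r, ∑ k, ∑ j, (P s r * P i j * P k l) * (A j k * B r s) := by
    rw [trB, eA, mul_sum2]
    refine sum_congr rfl fun s _ => sum_congr rfl fun r _ => sum_congr rfl fun k _ =>
      sum_congr rfl fun j _ => by ring
  have t6 : Matrix.trace (P * A * P * B) * P i l
      = ∑ s, ∑ r, ∑ k, ∑ j, (P s j * P k r * P i l) * (A j k * B r s) := by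
    simp only [Matrix.trace, Matrix.diag_apply, Matrix.mul_apply, Finset.sum_mul]
    refine sum_congr rfl fun s _ => sum_congr rfl fun r _ => sum_congr rfl fun k _ =>
      sum_congr rfl fun j _ => by ring
  simp only [Matrix.add_apply, Matrix.smul_apply, smul_eq_mul]
  rw [t1, t2, t3, t4, t5, t6]
  simp only [← sum_add_distrib]
  refine sum_congr rfl fun s _ => sum_congr rfl fun r _ => sum_congr rfl fun k _ =>
      sum_congr rfl fun j _ => ?_
  have := congrArg (fun t => t * (A j k * B r s)) (hP i k s j r l)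
  simp only [add_mul] at this
  exact this

theorem flip_mul (x p : Matrix (Fin n) (Fin n) Q) (xt : x.transpose = x) (pt : p.transpose = p)
    (h : x * p = x) : p * x = x := by
  have := congrArg Matrix.transpose h
  rwa [Matrix.transpose_mul, xt, pt] at this

theorem flip_mul' (x p : Matrix (Fin n) (Fin n) Q) (xt : x.transpose = x) (pt : p.transpose = p)
    (h : p * x = x) : x * p = x := by
  have := congrArg Matrix.transpose h
  rwa [Matrix.transpose_mul, xt, pt] at this

theorem point_id (P X X' : Matrix (Fin n) (Fin n) Q) (hP : Minor P)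
    (h1 : X * P = X) (h2 : P * X = X) (h3 : X' * P = X') (h4 : P * X' = X')
    (hX : Matrix.trace X = 1) (hX' : Matrix.trace X' = 1) :
    P + X * X' + X' * X = X + X' + Matrix.trace (X * X') • P := by
  have h := minor_id P X X' hP
  have e1 : P * X * P * X' * P = X * X' := by
    rw [h2, h1, Matrix.mul_assoc, h3]
  have e2 : P * X' * P * X * P = X' * X := by
    rw [h4, h3, Matrix.mul_assoc, h1]
  have e3 : P * X' * P = X' := by rw [h4, h3]
  have e4 : P * X * P = X := by rw [h2, h1]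
  rw [e1, e2, e3, e4, h2, h4, hX, hX', one_mul, one_smul, one_smul, one_smul] at h
  rw [add_comm P, add_assoc, add_comm P, ← add_assoc, h, add_comm X']

theorem line_id (P P' X : Matrix (Fin n) (Fin n) Q) (hP : Minor P)
    (h1 : X * P = X) (h2 : P * X = X) (h4 : X * P' = X) (h3 : P' * X = X)
    (hX : Matrix.trace X = 1) :
    X + X + Matrix.trace (P * P') • P = Matrix.trace (P * P') • X + P * P' * P + P := by
  have h := minor_id P P' X hP
  have e1 : P * P' * P * X * P = X := by
    rw [Matrix.mul_assoc (P * P'), h2, Matrix.mul_assoc P, h3, h2, h1]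
  have e2 : P * X * P * P' * P = X := by
    rw [h2, h1, h4, h1]
  have e3 : P * X * P = X := by rw [h2, h1]
  have e4 : P * P' * P * X = X := by
    rw [Matrix.mul_assoc (P * P'), h2, Matrix.mul_assoc P, h3, h2]
  rw [e1, e2, e3, e4, h2, hX, mul_one, one_smul, one_smul] at h
  exact h

end mat

section tri

variable {n : ℕ} {A A' V : Type*} [CommRing A] [Algebra ℂ A] [CommRing A'] [Algebra ℂ A']
  [AddCommGroup V] [Module ℂ V]

/-- the ring of the three variables -/
abbrev Tri (A A' : Type*) [CommRing A] [Algebra ℂ A] [CommRing A'] [Algebra ℂ A'] : Type _ :=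
  (A ⊗[ℂ] A') ⊗[ℂ] A

/-- the linear form of a trilinear map -/
noncomputable def lin (T : A →ₗ[ℂ] A' →ₗ[ℂ] A →ₗ[ℂ] V) : Tri A A' →ₗ[ℂ] V :=
  TensorProduct.lift (TensorProduct.lift T)

@[simp] theorem lin_tmul (T : A →ₗ[ℂ] A' →ₗ[ℂ] A →ₗ[ℂ] V) (a : A) (b : A') (a' : A) :
    lin T ((a ⊗ₜ[ℂ] b) ⊗ₜ[ℂ] a') = T a b a' := by
  simp [lin]

/-- the ideal of the relations of a trilinear map -/
noncomputable def idl (T : A →ₗ[ℂ] A' →ₗ[ℂ] A →ₗ[ℂ] V) : Ideal (Tri A A') where
  carrier := {Φ | ∀ Ψ, lin T (Ψ * Φ) = 0}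
  add_mem' := by
    intro a b ha hb Ψ
    rw [mul_add, map_add, ha, hb, add_zero]
  zero_mem' := by intro Ψ; simp
  smul_mem' := by
    intro c x hx Ψ
    rw [smul_eq_mul, ← mul_assoc]; exact hx _

theorem mem_idl (T : A →ₗ[ℂ] A' →ₗ[ℂ] A →ₗ[ℂ] V) (Φ : Tri A A')
    (h : ∀ a b a', lin T (((a ⊗ₜ[ℂ] b) ⊗ₜ[ℂ] a') * Φ) = 0) : Φ ∈ idl T := by
  intro Ψ
  induction Ψ using TensorProduct.induction_on with
  | zero => simp
  | add x y hx hy => rw [add_mul, map_add, hx, hy, add_zero]
  | tmul x a' =>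
    induction x using TensorProduct.induction_on with
    | zero => simp
    | add x y hx hy => rw [TensorProduct.add_tmul, add_mul, map_add, hx, hy, add_zero]
    | tmul a b => exact h a b a'

/-- left, middle and right variables -/
noncomputable def li (a : A) : Tri A A' := (a ⊗ₜ[ℂ] (1 : A')) ⊗ₜ[ℂ] (1 : A)
noncomputable def mi (b : A') : Tri A A' := ((1 : A) ⊗ₜ[ℂ] b) ⊗ₜ[ℂ] (1 : A)
noncomputable def ri (a : A) : Tri A A' := ((1 : A) ⊗ₜ[ℂ] (1 : A')) ⊗ₜ[ℂ] a

theorem lin_mul (T : A →ₗ[ℂ] A' →ₗ[ℂ] A →ₗ[ℂ] V) (a : A) (b : A') (a' : A) (u : A) (v : A')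
    (u' : A) : lin T (((a ⊗ₜ[ℂ] b) ⊗ₜ[ℂ] a') * (li u * mi v * ri u')) = T (a * u) (b * v) (a' * u') := by
  simp [li, mi, ri, Algebra.TensorProduct.tmul_mul_tmul]

/-- the three ring homomorphisms to the quotient by the relations -/
noncomputable def qL (T : A →ₗ[ℂ] A' →ₗ[ℂ] A →ₗ[ℂ] V) : A →+* (Tri A A' ⧸ idl T) :=
  (Ideal.Quotient.mk (idl T)).comp
    ((Algebra.TensorProduct.includeLeft : (A ⊗[ℂ] A') →ₐ[ℂ] Tri A A').comp
      (Algebra.TensorProduct.includeLeft : A →ₐ[ℂ] A ⊗[ℂ] A')).toRingHom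
noncomputable def qM (T : A →ₗ[ℂ] A' →ₗ[ℂ] A →ₗ[ℂ] V) : A' →+* (Tri A A' ⧸ idl T) :=
  (Ideal.Quotient.mk (idl T)).comp
    ((Algebra.TensorProduct.includeLeft : (A ⊗[ℂ] A') →ₐ[ℂ] Tri A A').comp
      (Algebra.TensorProduct.includeRight : A' →ₐ[ℂ] A ⊗[ℂ] A')).toRingHom
noncomputable def qR (T : A →ₗ[ℂ] A' →ₗ[ℂ] A →ₗ[ℂ] V) : A →+* (Tri A A' ⧸ idl T) :=
  (Ideal.Quotient.mk (idl T)).comp
    (Algebra.TensorProduct.includeRight : A →ₐ[ℂ] Tri A A').toRingHom

theorem qL_apply (T : A →ₗ[ℂ] A' →ₗ[ℂ] A →ₗ[ℂ] V) (a : A) :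
    qL T a = Ideal.Quotient.mk (idl T) (li a) := rfl
theorem qM_apply (T : A →ₗ[ℂ] A' →ₗ[ℂ] A →ₗ[ℂ] V) (b : A') :
    qM T b = Ideal.Quotient.mk (idl T) (mi b) := rfl
theorem qR_apply (T : A →ₗ[ℂ] A' →ₗ[ℂ] A →ₗ[ℂ] V) (a : A) :
    qR T a = Ideal.Quotient.mk (idl T) (ri a) := rfl

theorem q_eq_zero (T : A →ₗ[ℂ] A' →ₗ[ℂ] A →ₗ[ℂ] V) {Φ : Tri A A'}
    (h : Ideal.Quotient.mk (idl T) Φ = 0) (a : A) (b : A') (a' : A) :
    lin T (((a ⊗ₜ[ℂ] b) ⊗ₜ[ℂ] a') * Φ) = 0 :=
  (Ideal.Quotient.eq_zero_iff_mem.1 h) _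

theorem point_rel (T : A →ₗ[ℂ] A' →ₗ[ℂ] A →ₗ[ℂ] V) (X : Matrix (Fin n) (Fin n) A)
    (P : Matrix (Fin n) (Fin n) A') (hXt : X.transpose = X) (hPt : P.transpose = P)
    (hX : Matrix.trace X = 1) (hP : Minor P)
    (hL : ∀ a b a' i j, ∑ k, T (a * X i k) (P k j * b) a' = T (a * X i j) b a')
    (hR : ∀ a b a' i j, ∑ k, T a (b * P i k) (X k j * a') = T a b (X i j * a'))
    (a : A) (b : A') (a' : A) (i l : Fin n) :
    T a (P i l * b) a' + ∑ k, T (a * X i k) b (X k l * a') + ∑ k, T (a * X k l) b (X i k * a')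
      = T (a * X i l) b a' + T a b (X i l * a')
        + ∑ j, ∑ k, T (a * X j k) (P i l * b) (X k j * a') := by
  set x := X.map (qL T) with hx
  set p := P.map (qM T) with hp
  set x' := X.map (qR T) with hx'
  have h1 : x * p = x := by
    ext i j
    rw [Matrix.mul_apply, ← sub_eq_zero]
    simp only [hx, hp, Matrix.map_apply, qL_apply, qM_apply, ← map_mul, ← map_sum, ← map_sub]
    rw [Ideal.Quotient.eq_zero_iff_mem]
    refine mem_idl T _ fun a b a' => ?_
    rw [mul_sub, map_sub, Finset.mul_sum, map_sum, sub_eq_zero]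
    have := hL a b a' i j
    simpa [li, mi, Algebra.TensorProduct.tmul_mul_tmul, mul_comm b] using this
  have h4 : p * x' = x' := by
    ext i j
    rw [Matrix.mul_apply, ← sub_eq_zero]
    simp only [hx', hp, Matrix.map_apply, qR_apply, qM_apply, ← map_mul, ← map_sum, ← map_sub]
    rw [Ideal.Quotient.eq_zero_iff_mem]
    refine mem_idl T _ fun a b a' => ?_
    rw [mul_sub, map_sub, Finset.mul_sum, map_sum, sub_eq_zero]
    have := hR a b a' i j
    simpa [ri, mi, Algebra.TensorProduct.tmul_mul_tmul, mul_comm a'] using this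
  have xt : x.transpose = x := by rw [hx, ← Matrix.transpose_map, hXt]
  have xt' : x'.transpose = x' := by rw [hx', ← Matrix.transpose_map, hXt]
  have pt : p.transpose = p := by rw [hp, ← Matrix.transpose_map, hPt]
  have h2 : p * x = x := flip_mul x p xt pt h1
  have h3 : x' * p = x' := flip_mul' x' p xt' pt h4
  have tx : Matrix.trace x = 1 := by
    have := congrArg (qL T) hX
    simpa [hx, Matrix.trace, map_sum] using this
  have tx' : Matrix.trace x' = 1 := by
    have := congrArg (qR T) hX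
    simpa [hx', Matrix.trace, map_sum] using this
  have pm : Minor p := by
    intro i k s j r l
    have := congrArg (qM T) (hP i k s j r l)
    simpa [hp, map_add, map_mul] using this
  have key := congrFun (congrFun (point_id p x x' pm h1 h2 h3 h4 tx tx') i) l
  rw [← sub_eq_zero] at key
  simp only [Matrix.add_apply, Matrix.smul_apply, smul_eq_mul, Matrix.mul_apply, Matrix.trace,
    Matrix.diag_apply, hx, hp, hx', Matrix.map_apply, qL_apply, qM_apply, qR_apply, ← map_mul,
    ← map_sum, ← map_add, ← map_sub] at key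
  have fin := q_eq_zero T key a b a'
  rw [mul_sub, map_sub, sub_eq_zero] at fin
  simpa [mul_add, Finset.mul_sum, Finset.sum_mul, map_sum, li, mi, ri,
    Algebra.TensorProduct.tmul_mul_tmul, mul_comm b, mul_comm a'] using fin

theorem line_rel (T : A →ₗ[ℂ] A' →ₗ[ℂ] A →ₗ[ℂ] V) (P : Matrix (Fin n) (Fin n) A)
    (X : Matrix (Fin n) (Fin n) A') (hXt : X.transpose = X) (hPt : P.transpose = P)
    (hX : Matrix.trace X = 1) (hP : Minor P)
    (hL : ∀ a b a' i j, ∑ k, T (a * P i k) (X k j * b) a' = T a (X i j * b) a')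
    (hR : ∀ a b a' i j, ∑ k, T a (b * X i k) (P k j * a') = T a (b * X i j) a')
    (a : A) (b : A') (a' : A) (i l : Fin n) :
    T a (X i l * b) a' + T a (X i l * b) a'
        + ∑ j, ∑ k, T (a * (P j k * P i l)) b (P k j * a')
      = ∑ j, ∑ k, T (a * P j k) (X i l * b) (P k j * a')
        + ∑ j, ∑ k, T (a * (P i k * P j l)) b (P k j * a') + T (a * P i l) b a' := by
  set x := X.map (qM T) with hx
  set p := P.map (qL T) with hp
  set p' := P.map (qR T) with hp'
  have h2 : p * x = x := by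
    ext i j
    rw [Matrix.mul_apply, ← sub_eq_zero]
    simp only [hx, hp, Matrix.map_apply, qL_apply, qM_apply, ← map_mul, ← map_sum, ← map_sub]
    rw [Ideal.Quotient.eq_zero_iff_mem]
    refine mem_idl T _ fun a b a' => ?_
    rw [mul_sub, map_sub, Finset.mul_sum, map_sum, sub_eq_zero]
    have := hL a b a' i j
    simpa [li, mi, Algebra.TensorProduct.tmul_mul_tmul, mul_comm b] using this
  have h4 : x * p' = x := by
    ext i j
    rw [Matrix.mul_apply, ← sub_eq_zero]
    simp only [hx, hp', Matrix.map_apply, qR_apply, qM_apply, ← map_mul, ← map_sum, ← map_sub]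
    rw [Ideal.Quotient.eq_zero_iff_mem]
    refine mem_idl T _ fun a b a' => ?_
    rw [mul_sub, map_sub, Finset.mul_sum, map_sum, sub_eq_zero]
    have := hR a b a' i j
    simpa [ri, mi, Algebra.TensorProduct.tmul_mul_tmul, mul_comm a'] using this
  have xt : x.transpose = x := by rw [hx, ← Matrix.transpose_map, hXt]
  have pt : p.transpose = p := by rw [hp, ← Matrix.transpose_map, hPt]
  have pt' : p'.transpose = p' := by rw [hp', ← Matrix.transpose_map, hPt]
  have h1 : x * p = x := flip_mul' x p xt pt h2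
  have h3 : p' * x = x := flip_mul x p' xt pt' h4
  have tx : Matrix.trace x = 1 := by
    have := congrArg (qM T) hX
    simpa [hx, Matrix.trace, map_sum] using this
  have pm : Minor p := by
    intro i k s j r l
    have := congrArg (qL T) (hP i k s j r l)
    simpa [hp, map_add, map_mul] using this
  have key := congrFun (congrFun (line_id p p' x pm h1 h2 h4 h3 tx) i) l
  rw [← sub_eq_zero] at key
  simp only [Matrix.add_apply, Matrix.smul_apply, smul_eq_mul, Matrix.mul_apply, Matrix.trace,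
    Matrix.diag_apply, hx, hp, hp', Matrix.map_apply, qL_apply, qM_apply, qR_apply, ← map_mul,
    ← map_sum, ← map_add, ← map_sub] at key
  have fin := q_eq_zero T key a b a'
  rw [mul_sub, map_sub, sub_eq_zero] at fin
  simpa [mul_add, Finset.mul_sum, Finset.sum_mul, map_sum, li, mi, ri,
    Algebra.TensorProduct.tmul_mul_tmul, mul_comm b, mul_comm a'] using fin

end tri

end Vale.Agent.P092.H616.Syn
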