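import Vale.Agent.P092.H616.SynB
import Vale.Agent.P092.H616.SynC
import Vale.Agent.P092.H702.Cells
import Vale.Agent.P092.H828.P.Q0c

/-! Synthesis over the reals: locality of the middle letter, both directions. -/

set_option linter.unusedSectionVars false

namespace Vale.Agent.P092.H616.Syn

open scoped BigOperators
open Finset Vale.Agent.P092.H702 Vale.Agent.P092.H828.P

variable {n : ℕ}

section mats

open Matrix

theorem sum_sq_pt {A : Matrix (Fin n) (Fin n) ℝ} (h : Pt A) : ∑ j, ∑ k, A j k ^ 2 = 1 := by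
  obtain ⟨u, hu, rfl⟩ := h
  have e : ∑ j, ∑ k, (vecMulVec u u j k) ^ 2 = (u ⬝ᵥ u) * (u ⬝ᵥ u) := by
    simp only [dotProduct, Finset.sum_mul_sum, vecMulVec_apply]
    exact sum_congr rfl fun j _ => sum_congr rfl fun k _ => by ring
  rw [e, hu, one_mul]

theorem tr_pt {A : Matrix (Fin n) (Fin n) ℝ} (h : Pt A) : ∑ j, A j j = 1 := by
  obtain ⟨u, hu, rfl⟩ := h
  simpa [dotProduct, vecMulVec_apply] using hu

theorem symm_pt {A : Matrix (Fin n) (Fin n) ℝ} (h : Pt A) (i j : Fin n) : A i j = A j i := by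
  obtain ⟨u, hu, rfl⟩ := h
  simp [vecMulVec_apply, mul_comm]

theorem row_ln {A : Matrix (Fin n) (Fin n) ℝ} (h : Ln A) (j : Fin n) :
    ∑ k, A j k ^ 2 = A j j := by
  obtain ⟨u, v, hu, hv, huv, rfl⟩ := h
  have e : ∑ k, ((vecMulVec u u + vecMulVec v v) j k) ^ 2
      = u j ^ 2 * (u ⬝ᵥ u) + 2 * u j * v j * (u ⬝ᵥ v) + v j ^ 2 * (v ⬝ᵥ v) := by
    simp only [dotProduct, Finset.mul_sum, ← sum_add_distrib, Matrix.add_apply, vecMulVec_apply]
    exact sum_congr rfl fun k _ => by ring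
  rw [e, hu, hv, huv]
  simp only [Matrix.add_apply, vecMulVec_apply]
  ring

theorem tr_ln {A : Matrix (Fin n) (Fin n) ℝ} (h : Ln A) : ∑ j, A j j = 2 := by
  obtain ⟨u, v, hu, hv, huv, rfl⟩ := h
  simp only [Matrix.add_apply, vecMulVec_apply, sum_add_distrib]
  simp only [dotProduct] at hu hv
  rw [hu, hv]; norm_num

theorem sum_sq_ln {A : Matrix (Fin n) (Fin n) ℝ} (h : Ln A) : ∑ j, ∑ k, A j k ^ 2 = 2 := by
  simp only [row_ln h, tr_ln h]

theorem symm_ln {A : Matrix (Fin n) (Fin n) ℝ} (h : Ln A) (i j : Fin n) : A i j = A j i := by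
  obtain ⟨u, v, hu, hv, huv, rfl⟩ := h
  simp [vecMulVec_apply, mul_comm]

theorem ln_le {A : Matrix (Fin n) (Fin n) ℝ} (h : Ln A) (i j : Fin n) : |A i j| ≤ 1 := by
  have h1 := row_ln h i
  have h2 : A i j ^ 2 ≤ A i i := by
    rw [← h1]
    exact single_le_sum (f := fun k => A i k ^ 2) (fun k _ => sq_nonneg _) (mem_univ j)
  have h3 : A i i ^ 2 ≤ A i i := by
    calc A i i ^ 2 ≤ ∑ k, A i k ^ 2 :=
          single_le_sum (f := fun k => A i k ^ 2) (fun k _ => sq_nonneg _) (mem_univ i)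
      _ = A i i := h1
  have h4 : A i i ≤ 1 := by nlinarith
  rw [← sq_le_one_iff_abs_le_one]
  linarith

theorem minor_ln {A : Matrix (Fin n) (Fin n) ℝ} (h : Ln A) : Minor A := by
  obtain ⟨u, v, hu, hv, huv, rfl⟩ := h
  intro i k s j r l
  simp only [Matrix.add_apply, vecMulVec_apply]
  ring

theorem tr_lt {A B : Matrix (Fin n) (Fin n) ℝ} {c : ℝ} (hc : 0 < c)
    (hA : ∑ j, ∑ k, A j k ^ 2 = c) (hB : ∑ j, ∑ k, B j k ^ 2 = c)
    (hA' : ∑ j, A j j = c) (hB' : ∑ j, B j j = c) (hs : ∀ i j, B i j = B j i) (h : A ≠ B) :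
    |∑ j, ∑ k, A j k * B k j| < c := by
  have hne : ∃ j k, A j k ≠ B j k := by
    by_contra hcon
    push Not at hcon
    exact h (by ext j k; exact hcon j k)
  have hsw : ∑ j, ∑ k, A j k * B k j = ∑ j, ∑ k, A j k * B j k :=
    sum_congr rfl fun j _ => sum_congr rfl fun k _ => by rw [hs k j]
  have e1 : ∑ j, ∑ k, (A j k - B j k) ^ 2 = c + c - 2 * ∑ j, ∑ k, A j k * B j k := by
    calc ∑ j, ∑ k, (A j k - B j k) ^ 2
        = ∑ j, ∑ k, (A j k ^ 2 + B j k ^ 2 - 2 * (A j k * B j k)) :=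
          sum_congr rfl fun j _ => sum_congr rfl fun k _ => by ring
      _ = _ := by
          simp only [sum_sub_distrib, sum_add_distrib, ← Finset.mul_sum, hA, hB]
  have e2 : ∑ j, ∑ k, (A j k + B j k) ^ 2 = c + c + 2 * ∑ j, ∑ k, A j k * B j k := by
    calc ∑ j, ∑ k, (A j k + B j k) ^ 2
        = ∑ j, ∑ k, (A j k ^ 2 + B j k ^ 2 + 2 * (A j k * B j k)) :=
          sum_congr rfl fun j _ => sum_congr rfl fun k _ => by ring
      _ = _ := by
          simp only [sum_add_distrib, ← Finset.mul_sum, hA, hB]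
  have p1 : 0 < ∑ j, ∑ k, (A j k - B j k) ^ 2 := by
    obtain ⟨j, k, hjk⟩ := hne
    calc (0 : ℝ) < (A j k - B j k) ^ 2 := by
          have : A j k - B j k ≠ 0 := sub_ne_zero.2 hjk
          positivity
      _ ≤ ∑ k, (A j k - B j k) ^ 2 :=
          single_le_sum (f := fun k => (A j k - B j k) ^ 2) (fun _ _ => sq_nonneg _) (mem_univ k)
      _ ≤ _ := single_le_sum (f := fun j => ∑ k, (A j k - B j k) ^ 2)
          (fun _ _ => sum_nonneg fun _ _ => sq_nonneg _) (mem_univ j)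
  have p2 : 0 < ∑ j, ∑ k, (A j k + B j k) ^ 2 := by
    have hex : ∃ j, A j j + B j j ≠ 0 := by
      by_contra hcon
      push Not at hcon
      have : ∑ j, (A j j + B j j) = 0 := sum_eq_zero fun j _ => hcon j
      rw [sum_add_distrib, hA', hB'] at this
      linarith
    obtain ⟨j, hj⟩ := hex
    calc (0 : ℝ) < (A j j + B j j) ^ 2 := by positivity
      _ ≤ ∑ k, (A j k + B j k) ^ 2 :=
          single_le_sum (f := fun k => (A j k + B j k) ^ 2) (fun _ _ => sq_nonneg _) (mem_univ j)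
      _ ≤ _ := single_le_sum (f := fun j => ∑ k, (A j k + B j k) ^ 2)
          (fun _ _ => sum_nonneg fun _ _ => sq_nonneg _) (mem_univ j)
  rw [hsw, abs_lt]
  constructor <;> linarith

end mats

variable {Y Z : Type*} [TopologicalSpace Y] [CompactSpace Y] [T2Space Y]
variable [TopologicalSpace Z] [CompactSpace Z] [T2Space Z]
variable {V : Type*} [NormedAddCommGroup V] [NormedSpace ℂ V]

/-- points and lines as projections -/
structure Geo (X : C(Y, Matrix (Fin n) (Fin n) ℝ)) (P : C(Z, Matrix (Fin n) (Fin n) ℝ)) :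
    Prop where
  injX : Function.Injective X
  injP : Function.Injective P
  pt : ∀ y, Pt (X y)
  ln : ∀ z, Ln (P z)

variable {X : C(Y, Matrix (Fin n) (Fin n) ℝ)} {P : C(Z, Matrix (Fin n) (Fin n) ℝ)}

/-- the matrix of coordinate functions -/
def mx (X : C(Y, Matrix (Fin n) (Fin n) ℝ)) : Matrix (Fin n) (Fin n) C(Y, ℂ) :=
  Matrix.of fun i j => cx X i j

@[simp] theorem mx_apply (X : C(Y, Matrix (Fin n) (Fin n) ℝ)) (i j : Fin n) :
    mx X i j = cx X i j := rfl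

theorem mx_symm (h : ∀ y i j, X y i j = X y j i) : (mx X).transpose = mx X := by
  ext i j y
  rw [Matrix.transpose_apply, mx_apply, mx_apply, cx_apply, cx_apply, h y j i]

theorem mx_trace (h : ∀ y, ∑ j, X y j j = 1) : Matrix.trace (mx X) = 1 := by
  ext y
  rw [Matrix.trace]
  simp only [Matrix.diag_apply, mx_apply, ContinuousMap.coe_sum, Finset.sum_apply,
    cx_apply, ContinuousMap.one_apply]
  rw [← Complex.ofReal_sum, h y, Complex.ofReal_one]

theorem mx_minor (h : ∀ y, Minor (X y)) : Minor (mx X) := by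
  intro i k s j r l
  ext z
  have := h z i k s j r l
  simp only [mx_apply, ContinuousMap.add_apply, ContinuousMap.mul_apply, cx_apply]
  exact_mod_cast this

theorem disj_zero {T : C(Y, ℂ) →ₗ[ℂ] C(Z, ℂ) →ₗ[ℂ] C(Y, ℂ) →ₗ[ℂ] V} {b : C(Z, ℂ)}
    (hb : ∀ a a' : C(Y, ℂ), Disjoint (tsupport (⇑a)) (tsupport (⇑a')) → T a b a' = 0)
    {a a' : C(Y, ℂ)} (hd : Disjoint (tsupport (⇑a)) (tsupport (⇑a'))) (u u' : C(Y, ℂ)) :
    T (a * u) b (u' * a') = 0 :=
  hb _ _ (hd.mono (tsupport_mul_sub _ _) (by rw [mul_comm]; exact tsupport_mul_sub _ _))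

/-- **points at the ends, lines in the middle** -/
theorem tri_point (hG : Geo X P) (T : C(Y, ℂ) →ₗ[ℂ] C(Z, ℂ) →ₗ[ℂ] C(Y, ℂ) →ₗ[ℂ] V)
    (M : ℝ) (hM : 0 ≤ M) (hbd : ∀ a b a', ‖T a b a'‖ ≤ M * ‖a‖ * ‖b‖ * ‖a'‖)
    (hL : ∀ a b a' i j, ∑ k, T (a * cx X i k) (cx P k j * b) a' = T (a * cx X i j) b a')
    (hR : ∀ a b a' i j, ∑ k, T a (b * cx P i k) (cx X k j * a') = T a b (cx X i j * a'))
    (h1 : ∀ a a' : C(Y, ℂ), Disjoint (tsupport (⇑a)) (tsupport (⇑a')) → T a 1 a' = 0)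
    (a a' : C(Y, ℂ)) (hd : Disjoint (tsupport (⇑a)) (tsupport (⇑a'))) (b : C(Z, ℂ)) :
    T a b a' = 0 := by
  refine mid_zero X P hG.injP 1 one_pos T M hM hbd (fun y i j => Cells.pt_le (hG.pt y) i j)
    (fun y y' hy => tr_lt one_pos (sum_sq_pt (hG.pt y)) (sum_sq_pt (hG.pt y')) (tr_pt (hG.pt y))
      (tr_pt (hG.pt y')) (symm_pt (hG.pt y')) fun h => hy (hG.injX h)) h1 ?_ a a' hd b
  intro b hb i l a a' hd
  have key := point_rel T (mx X) (mx P) (mx_symm fun y => symm_pt (hG.pt y))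
    (mx_symm fun z => symm_ln (hG.ln z)) (mx_trace fun y => tr_pt (hG.pt y))
    (mx_minor fun z => minor_ln (hG.ln z)) hL hR a b a' i l
  simp only [mx_apply] at key
  have z1 : ∑ k, T (a * cx X i k) b (cx X k l * a') = 0 :=
    sum_eq_zero fun k _ => disj_zero hb hd _ _
  have z2 : ∑ k, T (a * cx X k l) b (cx X i k * a') = 0 :=
    sum_eq_zero fun k _ => disj_zero hb hd _ _
  have z3 : T (a * cx X i l) b a' = 0 := by
    have := disj_zero hb hd (cx X i l) 1
    rwa [one_mul] at this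
  have z4 : T a b (cx X i l * a') = 0 := by
    have := disj_zero hb hd 1 (cx X i l)
    rwa [mul_one] at this
  rw [z1, z2, z3, z4] at key
  simpa [mul_comm a'] using key

/-- **lines at the ends, points in the middle** -/
theorem tri_line (hG : Geo X P) (T : C(Z, ℂ) →ₗ[ℂ] C(Y, ℂ) →ₗ[ℂ] C(Z, ℂ) →ₗ[ℂ] V)
    (M : ℝ) (hM : 0 ≤ M) (hbd : ∀ a b a', ‖T a b a'‖ ≤ M * ‖a‖ * ‖b‖ * ‖a'‖)
    (hL : ∀ a b a' i j, ∑ k, T (a * cx P i k) (cx X k j * b) a' = T a (cx X i j * b) a')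
    (hR : ∀ a b a' i j, ∑ k, T a (b * cx X i k) (cx P k j * a') = T a (b * cx X i j) a')
    (h1 : ∀ a a' : C(Z, ℂ), Disjoint (tsupport (⇑a)) (tsupport (⇑a')) → T a 1 a' = 0)
    (a a' : C(Z, ℂ)) (hd : Disjoint (tsupport (⇑a)) (tsupport (⇑a'))) (b : C(Y, ℂ)) :
    T a b a' = 0 := by
  refine mid_zero P X hG.injX 2 two_pos T M hM hbd (fun z i j => ln_le (hG.ln z) i j)
    (fun z z' hz => tr_lt two_pos (sum_sq_ln (hG.ln z)) (sum_sq_ln (hG.ln z')) (tr_ln (hG.ln z))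
      (tr_ln (hG.ln z')) (symm_ln (hG.ln z')) fun h => hz (hG.injP h)) h1 ?_ a a' hd b
  intro b hb i l a a' hd
  have key := line_rel T (mx P) (mx X) (mx_symm fun y => symm_pt (hG.pt y))
    (mx_symm fun z => symm_ln (hG.ln z)) (mx_trace fun y => tr_pt (hG.pt y))
    (mx_minor fun z => minor_ln (hG.ln z)) hL hR a b a' i l
  simp only [mx_apply] at key
  have z1 : ∑ j, ∑ k, T (a * (cx P j k * cx P i l)) b (cx P k j * a') = 0 :=
    sum_eq_zero fun j _ => sum_eq_zero fun k _ => disj_zero hb hd _ _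
  have z2 : ∑ j, ∑ k, T (a * (cx P i k * cx P j l)) b (cx P k j * a') = 0 :=
    sum_eq_zero fun j _ => sum_eq_zero fun k _ => disj_zero hb hd _ _
  have z3 : T (a * cx P i l) b a' = 0 := by
    have := disj_zero hb hd (cx P i l) 1
    rwa [one_mul] at this
  rw [z1, z2, z3] at key
  simp only [add_zero] at key
  rw [← two_smul ℂ] at key
  simpa [mul_comm a'] using key

end Vale.Agent.P092.H616.Syn
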