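import Vale.Agent.P092.H616.SynE
import Vale.Agent.P092.H283.Syn3

/-! Synthesis over the reals: `Loc` and `Loc0`, both directions, from the incidence relation
(I1) only. -/

set_option linter.unusedSectionVars false

namespace Vale.Agent.P092.H616.Syn

open scoped BigOperators
open Finset Vale.Agent.P092.H702 Vale.Agent.P092.H828.P

variable {n : ℕ}
variable {Y Z : Type*} [TopologicalSpace Y] [CompactSpace Y] [T2Space Y]
variable [TopologicalSpace Z] [CompactSpace Z] [T2Space Z]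
variable {K : Type*} [NormedAddCommGroup K] [InnerProductSpace ℂ K] [CompleteSpace K]
variable {X : C(Y, Matrix (Fin n) (Fin n) ℝ)} {P : C(Z, Matrix (Fin n) (Fin n) ℝ)}
variable {E E' E₁ E₂ : C(Y, ℂ) →ₗ[ℂ] (K →L[ℂ] K)} {F F' F₁ F₂ : C(Z, ℂ) →ₗ[ℂ] (K →L[ℂ] K)}
  {p p' p₁ p₂ q q' q₁ q₂ : ℝ}

/-- (I1): letters multiply to zero off the incidence relation -/
def I1 (X : C(Y, Matrix (Fin n) (Fin n) ℝ)) (P : C(Z, Matrix (Fin n) (Fin n) ℝ))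
    (E : C(Y, ℂ) →ₗ[ℂ] (K →L[ℂ] K)) (F : C(Z, ℂ) →ₗ[ℂ] (K →L[ℂ] K)) : Prop :=
  ∀ (f : C(Y, ℂ)) (g : C(Z, ℂ)),
    (∀ x ∈ tsupport f, ∀ z ∈ tsupport g, P z * X x ≠ X x) → E f * F g = 0

theorem rel_of (hG : Geo X P) (hE : UL E p) (hF : UL F q) (hI : I1 X P E F) : Rel X P E F := by
  rcases subsingleton_or_nontrivial K with hK | hK
  · have h0 : ∀ A B : K →L[ℂ] K, A = B := fun A B => by
      ext x; exact Subsingleton.elim _ _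
    exact ⟨fun _ _ _ _ => h0 _ _, fun _ _ _ _ => h0 _ _⟩
  · exact ⟨fun a b i j => H283.Syn.rel_l hG.pt hG.ln hE.mass_nonneg hF.mass_nonneg hE hF hI a b i j,
      fun a b i j => H283.Syn.rel_r hG.pt hG.ln hE.mass_nonneg hF.mass_nonneg hE hF hI a b i j⟩

/-- **(1) of [0] over the reals, points at the ends** -/
theorem loc_real (hG : Geo X P) (hE₁ : UL E₁ p₁) (hE₂ : UL E₂ p₂) (hF : UL F q) (hF' : UL F' q')
    (i₁ : I1 X P E₁ F) (i₁' : I1 X P E₁ F') (i₂ : I1 X P E₂ F) (i₂' : I1 X P E₂ F')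
    (h1 : F 1 = F' 1) : Loc E₁ E₂ F F' :=
  loc hG (bdd_of_UL hE₁) (bdd_of_UL hE₂) (bdd_of_UL hF) (bdd_of_UL hF')
    (rel_of hG hE₁ hF i₁) (rel_of hG hE₁ hF' i₁') (rel_of hG hE₂ hF i₂) (rel_of hG hE₂ hF' i₂') h1

/-- **(5) of [0] over the reals, points at the ends** -/
theorem loc0_real (hG : Geo X P) (hE₁ : UL E₁ p₁) (hE₂ : UL E₂ p₂) (hF : UL F q)
    (i₁ : I1 X P E₁ F) (i₂ : I1 X P E₂ F) (hdis : Dis E₁ E₂) : Loc0 E₁ E₂ F :=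
  loc0 hG (bdd_of_UL hE₁) (bdd_of_UL hE₂) (bdd_of_UL hF) (rel_of hG hE₁ hF i₁)
    (rel_of hG hE₂ hF i₂) hdis hF.one

/-- **(1) of [0] over the reals, lines at the ends** -/
theorem locD_real (hG : Geo X P) (hF₁ : UL F₁ q₁) (hF₂ : UL F₂ q₂) (hE : UL E p) (hE' : UL E' p')
    (i₁ : I1 X P E F₁) (i₁' : I1 X P E' F₁) (i₂ : I1 X P E F₂) (i₂' : I1 X P E' F₂)
    (h1 : E 1 = E' 1) : Loc F₁ F₂ E E' :=
  locD hG (bdd_of_UL hF₁) (bdd_of_UL hF₂) (bdd_of_UL hE) (bdd_of_UL hE')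
    (rel_of hG hE hF₁ i₁) (rel_of hG hE' hF₁ i₁') (rel_of hG hE hF₂ i₂) (rel_of hG hE' hF₂ i₂') h1

/-- **(5) of [0] over the reals, lines at the ends** -/
theorem loc0D_real (hG : Geo X P) (hF₁ : UL F₁ q₁) (hF₂ : UL F₂ q₂) (hE : UL E p)
    (i₁ : I1 X P E F₁) (i₂ : I1 X P E F₂) (hdis : Dis F₁ F₂) : Loc0 F₁ F₂ E :=
  loc0D hG (bdd_of_UL hF₁) (bdd_of_UL hF₂) (bdd_of_UL hE) (rel_of hG hE hF₁ i₁)
    (rel_of hG hE hF₂ i₂) hdis hE.one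

end Vale.Agent.P092.H616.Syn
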